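import Mathlib

/-!
Analysis on the p-biased cube: orthogonal characters, averaging operators, influences and a
(2,4) moment inequality for functions of bounded degree.
-/

namespace Vale.Agent.P063

open Finset

/-- The weight of one bit. -/
def bw (p : ℝ) (b : Bool) : ℝ := if b then p else 1 - p

/-- The centred bit `b - p`. -/
def bv (p : ℝ) (b : Bool) : ℝ := if b then 1 - p else -p

variable {ι : Type*} [Fintype ι] [DecidableEq ι]

/-- The product weight. -/
def wt (p : ℝ) (x : ι → Bool) : ℝ := ∏ i, bw p (x i)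

/-- Expectation for the product measure. -/
def expect (p : ℝ) (g : (ι → Bool) → ℝ) : ℝ := ∑ x, wt p x * g x

/-- The character of a set. -/
def chi (p : ℝ) (S : Finset ι) (x : ι → Bool) : ℝ := ∏ i ∈ S, bv p (x i)

/-- The coefficient against a character. -/
def co (p : ℝ) (g : (ι → Bool) → ℝ) (S : Finset ι) : ℝ := expect p fun x => g x * chi p S x

/-- The spectral weight of a set. -/
noncomputable def specW (p : ℝ) (g : (ι → Bool) → ℝ) (S : Finset ι) : ℝ :=
  (co p g S) ^ 2 / (p * (1 - p)) ^ S.card

/-- Influence of a coordinate. -/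
def infl (p : ℝ) (g : (ι → Bool) → ℝ) (e : ι) : ℝ :=
  expect p fun x => |g (Function.update x e true) - g (Function.update x e false)|

/-- The kernel resampling the coordinates in `A`. -/
def ker (p : ℝ) (A : Finset ι) (x y : ι → Bool) : ℝ :=
  ∏ i, if i ∈ A then bw p (y i) else if x i = y i then 1 else 0

/-- Averaging over the coordinates in `A`. -/
def avg (p : ℝ) (A : Finset ι) (g : (ι → Bool) → ℝ) (x : ι → Bool) : ℝ :=
  ∑ y, ker p A x y * g y

variable {p : ℝ}

lemma bw_nonneg (h0 : 0 ≤ p) (h1 : p ≤ 1) (b : Bool) : 0 ≤ bw p b := by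
  cases b <;> simp [bw] <;> linarith

lemma wt_nonneg (h0 : 0 ≤ p) (h1 : p ≤ 1) (x : ι → Bool) : 0 ≤ wt p x :=
  Finset.prod_nonneg fun i _ => bw_nonneg h0 h1 _

lemma expect_prod (u : ι → Bool → ℝ) :
    expect p (fun x => ∏ i, u i (x i)) = ∏ i, (p * u i true + (1 - p) * u i false) := by
  have h : ∀ i, p * u i true + (1 - p) * u i false = ∑ b, bw p b * u i b := by
    intro i; simp [bw]
  simp_rw [h]
  rw [Fintype.prod_sum]
  simp only [expect, wt, Finset.prod_mul_distrib]

lemma expect_const (c : ℝ) : expect p (fun _ : ι → Bool => c) = c := by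
  have h := expect_prod (p := p) (ι := ι) (fun _ _ => 1)
  simp [expect] at h
  rw [expect, ← Finset.sum_mul, h, one_mul]

lemma expect_add (f g : (ι → Bool) → ℝ) :
    expect p (fun x => f x + g x) = expect p f + expect p g := by
  simp [expect, mul_add, Finset.sum_add_distrib]

lemma expect_sub (f g : (ι → Bool) → ℝ) :
    expect p (fun x => f x - g x) = expect p f - expect p g := by
  simp [expect, mul_sub, Finset.sum_sub_distrib]

lemma expect_smul (c : ℝ) (g : (ι → Bool) → ℝ) :
    expect p (fun x => c * g x) = c * expect p g := by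
  simp only [expect, Finset.mul_sum]
  exact Finset.sum_congr rfl fun x _ => by ring

lemma expect_sum {κ : Type*} (s : Finset κ) (f : κ → (ι → Bool) → ℝ) :
    expect p (fun x => ∑ k ∈ s, f k x) = ∑ k ∈ s, expect p (f k) := by
  simp only [expect, Finset.mul_sum]
  rw [Finset.sum_comm]

lemma expect_mono (h0 : 0 ≤ p) (h1 : p ≤ 1) {f g : (ι → Bool) → ℝ} (h : ∀ x, f x ≤ g x) :
    expect p f ≤ expect p g :=
  Finset.sum_le_sum fun x _ => mul_le_mul_of_nonneg_left (h x) (wt_nonneg h0 h1 x)

lemma expect_nonneg (h0 : 0 ≤ p) (h1 : p ≤ 1) {f : (ι → Bool) → ℝ} (h : ∀ x, 0 ≤ f x) :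
    0 ≤ expect p f :=
  Finset.sum_nonneg fun x _ => mul_nonneg (wt_nonneg h0 h1 x) (h x)

lemma chi_eq (S : Finset ι) (x : ι → Bool) :
    chi p S x = ∏ i, if i ∈ S then bv p (x i) else 1 := by
  rw [chi, Fintype.prod_ite_mem]

lemma expect_chi_mul (S T : Finset ι) :
    expect p (fun x => chi p S x * chi p T x) = if S = T then (p * (1 - p)) ^ S.card else 0 := by
  simp only [chi_eq, ← Finset.prod_mul_distrib]
  rw [expect_prod (p := p) (fun i b => (if i ∈ S then bv p b else 1) * (if i ∈ T then bv p b else 1))]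
  split_ifs with h
  · subst h
    rw [← Finset.prod_const, ← Fintype.prod_ite_mem S (fun _ => p * (1 - p))]
    refine Finset.prod_congr rfl fun i _ => ?_
    split_ifs <;> simp [bv] <;> ring
  · obtain ⟨i, hi⟩ : ∃ i, ¬ (i ∈ S ↔ i ∈ T) := by
      by_contra hc
      push Not at hc
      exact h (Finset.ext hc)
    refine Finset.prod_eq_zero (Finset.mem_univ i) ?_
    by_cases h1 : i ∈ S <;> by_cases h2 : i ∈ T <;> simp_all [bv] <;> ring

lemma kernel_identity (h0 : 0 < p) (h1 : p < 1) (x y : ι → Bool) :
    ∑ S : Finset ι, chi p S x * chi p S y / (p * (1 - p)) ^ S.card * wt p y =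
      if x = y then 1 else 0 := by
  have hp : p ≠ 0 := h0.ne'
  have hq : (1 - p) ≠ 0 := by linarith
  have e : ∑ S : Finset ι, chi p S x * chi p S y / (p * (1 - p)) ^ S.card =
      ∏ i, (1 + bv p (x i) * bv p (y i) / (p * (1 - p))) := by
    rw [Finset.prod_one_add, Finset.powerset_univ]
    refine Finset.sum_congr rfl fun S _ => ?_
    rw [chi, chi, ← Finset.prod_mul_distrib, Finset.prod_div_distrib, Finset.prod_const]
  rw [← Finset.sum_mul, e, wt, ← Finset.prod_mul_distrib]
  split_ifs with h
  · subst h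
    refine Finset.prod_eq_one fun i _ => ?_
    cases x i <;> simp [bv, bw] <;> field_simp <;> ring
  · obtain ⟨i, hi⟩ := Function.ne_iff.mp h
    refine Finset.prod_eq_zero (Finset.mem_univ i) ?_
    revert hi
    cases x i <;> cases y i <;>
      simp only [bv, bw, ne_eq, not_true_eq_false, not_false_eq_true, IsEmpty.forall_iff,
        true_implies, Bool.false_eq_true, Bool.true_eq_false, if_true, if_false] <;>
      field_simp <;> ring

lemma inversion (h0 : 0 < p) (h1 : p < 1) (g : (ι → Bool) → ℝ) (x : ι → Bool) :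
    g x = ∑ S : Finset ι, co p g S / (p * (1 - p)) ^ S.card * chi p S x := by
  have e : g x = ∑ y, (if x = y then 1 else 0) * g y := by simp
  rw [e]
  simp only [← kernel_identity h0 h1 x, Finset.sum_mul]
  rw [Finset.sum_comm]
  refine Finset.sum_congr rfl fun S _ => ?_
  simp only [co, expect, Finset.sum_div, Finset.sum_mul]
  exact Finset.sum_congr rfl fun y _ => by ring

lemma parseval_mul (h0 : 0 < p) (h1 : p < 1) (f g : (ι → Bool) → ℝ) :
    expect p (fun x => f x * g x) =
      ∑ S : Finset ι, co p g S / (p * (1 - p)) ^ S.card * co p f S := by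
  have e : (fun x => f x * g x) = fun x =>
      ∑ S : Finset ι, co p g S / (p * (1 - p)) ^ S.card * (f x * chi p S x) := by
    funext x
    conv_lhs => rw [inversion h0 h1 g x]
    rw [Finset.mul_sum]
    exact Finset.sum_congr rfl fun S _ => by ring
  rw [e, expect_sum]
  exact Finset.sum_congr rfl fun S _ => by rw [expect_smul]; rfl

lemma parseval (h0 : 0 < p) (h1 : p < 1) (g : (ι → Bool) → ℝ) :
    expect p (fun x => g x ^ 2) = ∑ S : Finset ι, specW p g S := by
  simp only [sq]
  rw [parseval_mul h0 h1]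
  exact Finset.sum_congr rfl fun S _ => by simp only [specW]; ring

lemma specW_nonneg (h0 : 0 < p) (h1 : p < 1) (g : (ι → Bool) → ℝ) (S : Finset ι) :
    0 ≤ specW p g S :=
  div_nonneg (sq_nonneg _) (pow_nonneg (mul_nonneg h0.le (by linarith)) _)

lemma co_empty (g : (ι → Bool) → ℝ) : co p g ∅ = expect p g := by
  simp [co, chi]

lemma variance_eq (h0 : 0 < p) (h1 : p < 1) (g : (ι → Bool) → ℝ) :
    expect p (fun x => g x ^ 2) - (expect p g) ^ 2 =
      ∑ S ∈ (Finset.univ : Finset (Finset ι)).erase ∅, specW p g S := by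
  rw [parseval h0 h1, ← Finset.add_sum_erase _ _ (Finset.mem_univ (∅ : Finset ι))]
  simp [specW, co_empty]

/-! ### Kernels -/

lemma ker_nonneg (h0 : 0 ≤ p) (h1 : p ≤ 1) (A : Finset ι) (x y : ι → Bool) :
    0 ≤ ker p A x y := by
  refine Finset.prod_nonneg fun i _ => ?_
  split_ifs
  · exact bw_nonneg h0 h1 _
  · exact zero_le_one
  · exact le_rfl

lemma ker_sum (A : Finset ι) (x : ι → Bool) : ∑ y, ker p A x y = 1 := by
  unfold ker
  rw [← Fintype.prod_sum (fun i b => if i ∈ A then bw p b else if x i = b then (1 : ℝ) else 0)]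
  refine Finset.prod_eq_one fun i _ => ?_
  split_ifs <;> simp [bw]

lemma ker_comp (A B : Finset ι) (x z : ι → Bool) :
    ∑ y, ker p A x y * ker p B y z = ker p (A ∪ B) x z := by
  unfold ker
  simp only [← Finset.prod_mul_distrib]
  rw [← Fintype.prod_sum (fun i b => (if i ∈ A then bw p b else if x i = b then (1 : ℝ) else 0) *
    (if i ∈ B then bw p (z i) else if b = z i then 1 else 0))]
  refine Finset.prod_congr rfl fun i _ => ?_
  by_cases h1 : i ∈ A <;> by_cases h2 : i ∈ B <;>
    cases x i <;> cases z i <;> simp [h1, h2, bw] <;> ring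

lemma ker_symm (A : Finset ι) (x y : ι → Bool) :
    wt p x * ker p A x y = wt p y * ker p A y x := by
  simp only [wt, ker, ← Finset.prod_mul_distrib]
  refine Finset.prod_congr rfl fun i _ => ?_
  by_cases h : i ∈ A <;> cases x i <;> cases y i <;> simp [h, bw] <;> ring

lemma expect_avg_mul (A : Finset ι) (f g : (ι → Bool) → ℝ) :
    expect p (fun x => avg p A f x * g x) = expect p (fun x => f x * avg p A g x) := by
  simp only [expect, avg, Finset.mul_sum, Finset.sum_mul]
  rw [Finset.sum_comm]
  refine Finset.sum_congr rfl fun y _ => Finset.sum_congr rfl fun x _ => ?_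
  have := ker_symm (p := p) A x y
  calc wt p x * (ker p A x y * f y * g x) = (wt p x * ker p A x y) * f y * g x := by ring
    _ = (wt p y * ker p A y x) * f y * g x := by rw [this]
    _ = wt p y * (f y * (ker p A y x * g x)) := by ring

lemma avg_const (A : Finset ι) (c : ℝ) (x : ι → Bool) :
    avg p A (fun _ => c) x = c := by
  simp [avg, ← Finset.sum_mul, ker_sum]

lemma expect_avg (A : Finset ι) (f : (ι → Bool) → ℝ) :
    expect p (avg p A f) = expect p f := by
  simpa [avg_const] using expect_avg_mul (p := p) A f (fun _ => 1)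

lemma avg_union (A B : Finset ι) (g : (ι → Bool) → ℝ) (x : ι → Bool) :
    avg p A (avg p B g) x = avg p (A ∪ B) g x := by
  simp only [avg, Finset.mul_sum, ← ker_comp A B, Finset.sum_mul]
  rw [Finset.sum_comm]
  exact Finset.sum_congr rfl fun y _ => Finset.sum_congr rfl fun z _ => by ring

lemma avg_empty (g : (ι → Bool) → ℝ) (x : ι → Bool) : avg p ∅ g x = g x := by
  have h : ∀ y, ker p ∅ x y = if x = y then 1 else 0 := by
    intro y
    simp only [ker, Finset.notMem_empty, if_false]
    split_ifs with hxy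
    · simp [hxy]
    · obtain ⟨i, hi⟩ := Function.ne_iff.mp hxy
      exact Finset.prod_eq_zero (Finset.mem_univ i) (by simp [hi])
  simp [avg, h]

lemma avg_singleton (e : ι) (g : (ι → Bool) → ℝ) (x : ι → Bool) :
    avg p {e} g x =
      p * g (Function.update x e true) + (1 - p) * g (Function.update x e false) := by
  have h : ∀ y, ker p {e} x y = ∑ b, bw p b * (if Function.update x e b = y then 1 else 0) := by
    intro y
    rw [ker, ← Finset.mul_prod_erase _ _ (Finset.mem_univ e)]
    simp only [Finset.mem_singleton, if_true]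
    by_cases hc : ∀ i, i ≠ e → x i = y i
    · rw [Finset.prod_eq_one]
      · have : Function.update x e (y e) = y := by
          funext i
          by_cases hi : i = e
          · subst hi; simp
          · simp [hi, hc i hi]
        rw [Finset.sum_eq_single (y e)]
        · simp [this]
        · intro b _ hb
          rw [if_neg, mul_zero]
          intro h'
          exact hb (by rw [← h']; simp)
        · simp
      · intro i hi
        have := Finset.ne_of_mem_erase hi
        simp [this, hc i this]
    · push Not at hc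
      obtain ⟨i, hie, hi⟩ := hc
      rw [Finset.prod_eq_zero (i := i) (by simp [hie]) (by simp [hie, hi]), mul_zero]
      symm
      refine Finset.sum_eq_zero fun b _ => ?_
      rw [if_neg, mul_zero]
      intro h'
      apply hi
      rw [← h']
      simp [hie]
  simp only [avg, h, Finset.sum_mul, mul_assoc, ite_mul, one_mul, zero_mul]
  rw [Finset.sum_comm]
  simp [bw]

lemma expect_indep (e : ι) (u : Bool → ℝ) (Φ : (ι → Bool) → ℝ)
    (hΦ : ∀ x b, Φ (Function.update x e b) = Φ x) :
    expect p (fun x => u (x e) * Φ x) = (p * u true + (1 - p) * u false) * expect p Φ := by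
  rw [← expect_avg {e}, ← expect_smul]
  congr 1
  funext x
  rw [avg_singleton]
  simp [hΦ]
  ring

lemma abs_avg_le (h0 : 0 ≤ p) (h1 : p ≤ 1) (A : Finset ι) (g : (ι → Bool) → ℝ) (x : ι → Bool) :
    |avg p A g x| ≤ avg p A (fun y => |g y|) x := by
  refine (Finset.abs_sum_le_sum_abs _ _).trans (le_of_eq ?_)
  exact Finset.sum_congr rfl fun y _ => by rw [abs_mul, abs_of_nonneg (ker_nonneg h0 h1 A x y)]

lemma avg_sub (A : Finset ι) (f g : (ι → Bool) → ℝ) (x : ι → Bool) :
    avg p A (fun y => f y - g y) x = avg p A f x - avg p A g x := by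
  simp [avg, mul_sub, Finset.sum_sub_distrib]

lemma bool_sq_eq_abs {a b : ℝ} (ha : a = 0 ∨ a = 1) (hb : b = 0 ∨ b = 1) :
    (a - b) ^ 2 = |a - b| := by
  rcases ha with rfl | rfl <;> rcases hb with rfl | rfl <;> norm_num

lemma abs_sub_avg_single (h0 : 0 ≤ p) (h1 : p ≤ 1) (g : (ι → Bool) → ℝ) (e : ι) :
    expect p (fun x => |g x - avg p {e} g x|) = 2 * (p * (1 - p)) * infl p g e := by
  have h : ∀ x, |g x - avg p {e} g x| = (if x e then 1 - p else p) *
      |g (Function.update x e true) - g (Function.update x e false)| := by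
    intro x
    rw [avg_singleton]
    have hx : g x = g (Function.update x e (x e)) := by simp
    rw [hx]
    cases hb : x e
    · simp only [Bool.false_eq_true, if_false]
      conv_rhs => arg 1; rw [← abs_of_nonneg h0]
      rw [← abs_mul, ← abs_neg]
      congr 1
      ring
    · simp only [if_true]
      conv_rhs => arg 1; rw [← abs_of_nonneg (sub_nonneg.mpr h1)]
      rw [← abs_mul]
      congr 1
      ring
  simp only [h]
  rw [expect_indep e (fun b => if b then 1 - p else p)
    (fun x => |g (Function.update x e true) - g (Function.update x e false)|) (by simp)]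
  simp only [infl, if_true, Bool.false_eq_true, if_false]
  ring

lemma sq_sub_avg_single (g : (ι → Bool) → ℝ) (hg : ∀ x, g x = 0 ∨ g x = 1) (e : ι) :
    expect p (fun x => (g x - avg p {e} g x) ^ 2) = (p * (1 - p)) * infl p g e := by
  have h : ∀ x, (g x - avg p {e} g x) ^ 2 = (if x e then (1 - p) ^ 2 else p ^ 2) *
      |g (Function.update x e true) - g (Function.update x e false)| := by
    intro x
    rw [avg_singleton, ← bool_sq_eq_abs (hg _) (hg _)]
    have hx : g x = g (Function.update x e (x e)) := by simp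
    rw [hx]
    cases x e <;> simp <;> ring
  simp only [h]
  rw [expect_indep e (fun b => if b then (1 - p) ^ 2 else p ^ 2)
    (fun x => |g (Function.update x e true) - g (Function.update x e false)|) (by simp)]
  simp only [infl, if_true, Bool.false_eq_true, if_false]
  ring

lemma infl_nonneg (h0 : 0 ≤ p) (h1 : p ≤ 1) (g : (ι → Bool) → ℝ) (e : ι) : 0 ≤ infl p g e :=
  expect_nonneg h0 h1 fun _ => abs_nonneg _

lemma abs_sub_avg (h0 : 0 ≤ p) (h1 : p ≤ 1) (g : (ι → Bool) → ℝ) (A : Finset ι) :
    expect p (fun x => |g x - avg p A g x|) ≤ 2 * (p * (1 - p)) * ∑ e ∈ A, infl p g e := by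
  induction A using Finset.induction_on with
  | empty => simp [avg_empty, expect_const]
  | insert e A he ih =>
    have hle : ∀ x, |g x - avg p (insert e A) g x| ≤
        |g x - avg p A g x| + avg p A (fun y => |g y - avg p {e} g y|) x := by
      intro x
      have h := abs_avg_le h0 h1 A (fun y => g y - avg p {e} g y) x
      rw [avg_sub, avg_union, Finset.union_comm, ← Finset.insert_eq] at h
      calc |g x - avg p (insert e A) g x|
          = |(g x - avg p A g x) + (avg p A g x - avg p (insert e A) g x)| := by congr 1; ring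
        _ ≤ _ := (abs_add_le _ _).trans (by linarith)
    refine (expect_mono h0 h1 hle).trans ?_
    rw [expect_add, expect_avg, abs_sub_avg_single h0 h1, Finset.sum_insert he]
    linarith

lemma avg_chi_zero (A S : Finset ι) (h : (S ∩ A).Nonempty) (x : ι → Bool) :
    avg p A (chi p S) x = 0 := by
  obtain ⟨i, hi⟩ := h
  simp only [Finset.mem_inter] at hi
  unfold avg ker
  simp only [chi_eq, ← Finset.prod_mul_distrib]
  rw [← Fintype.prod_sum (fun j b => (if j ∈ A then bw p b else if x j = b then (1 : ℝ) else 0) *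
    (if j ∈ S then bv p b else 1))]
  refine Finset.prod_eq_zero (Finset.mem_univ i) ?_
  simp [hi.1, hi.2, bw, bv]
  ring

lemma co_sub_avg (A S : Finset ι) (h : (S ∩ A).Nonempty) (g : (ι → Bool) → ℝ) :
    co p (fun x => g x - avg p A g x) S = co p g S := by
  have e : expect p (fun x => avg p A g x * chi p S x) = 0 := by
    rw [expect_avg_mul]
    simp [avg_chi_zero A S h, expect_const]
  simp only [co, sub_mul, expect_sub, e, sub_zero]

lemma sum_specW_mem (h0 : 0 < p) (h1 : p < 1) (g : (ι → Bool) → ℝ)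
    (hg : ∀ x, g x = 0 ∨ g x = 1) (e : ι) :
    ∑ S ∈ (Finset.univ : Finset (Finset ι)).filter (fun S => e ∈ S), specW p g S ≤
      p * (1 - p) * infl p g e := by
  rw [← sq_sub_avg_single g hg e, parseval h0 h1]
  refine le_trans (le_of_eq ?_) (Finset.sum_le_sum_of_subset_of_nonneg
    (s := Finset.univ.filter fun S : Finset ι => e ∈ S)
    (Finset.subset_univ _) (fun S _ _ => specW_nonneg h0 h1 _ S))
  refine Finset.sum_congr rfl fun S hS => ?_
  simp only [Finset.mem_filter] at hS
  rw [specW, specW, co_sub_avg {e} S ⟨e, by simp [hS.2]⟩]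

lemma sum_card_specW (h0 : 0 < p) (h1 : p < 1) (g : (ι → Bool) → ℝ)
    (hg : ∀ x, g x = 0 ∨ g x = 1) :
    ∑ S : Finset ι, (S.card : ℝ) * specW p g S ≤ p * (1 - p) * ∑ e, infl p g e := by
  rw [Finset.mul_sum]
  refine le_trans (le_of_eq ?_) (Finset.sum_le_sum fun e _ => sum_specW_mem h0 h1 g hg e)
  simp only [Finset.sum_filter]
  rw [Finset.sum_comm]
  refine Finset.sum_congr rfl fun S _ => ?_
  rw [← Finset.sum_filter, Finset.sum_const, nsmul_eq_mul]
  simp

lemma specW_total_le_one (h0 : 0 < p) (h1 : p < 1) (g : (ι → Bool) → ℝ)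
    (hg : ∀ x, g x = 0 ∨ g x = 1) : ∑ S : Finset ι, specW p g S ≤ 1 := by
  rw [← parseval h0 h1]
  refine le_trans (expect_mono h0.le h1.le (fun x => ?_)) (le_of_eq (expect_const 1))
  rcases hg x with h | h <;> simp [h]

/-! ### Moments -/

/-- A polynomial in the characters of subsets of `s`. -/
def poly (p : ℝ) (c : Finset ι → ℝ) (s : Finset ι) (x : ι → Bool) : ℝ :=
  ∑ T ∈ s.powerset, c T * chi p T x

/-- The second moment of `poly`. -/
def polySq (p : ℝ) (c : Finset ι → ℝ) (s : Finset ι) : ℝ :=
  ∑ T ∈ s.powerset, c T ^ 2 * (p * (1 - p)) ^ T.card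

lemma sum_sq_cs {κ : Type*} (t : Finset κ) (w f g : κ → ℝ) (hw : ∀ k ∈ t, 0 ≤ w k) :
    (∑ k ∈ t, w k * (f k * g k)) ^ 2 ≤ (∑ k ∈ t, w k * f k ^ 2) * ∑ k ∈ t, w k * g k ^ 2 :=
  Finset.sum_sq_le_sum_mul_sum_of_sq_eq_mul t
    (fun k hk => mul_nonneg (hw k hk) (sq_nonneg _))
    (fun k hk => mul_nonneg (hw k hk) (sq_nonneg _))
    (fun k _ => by ring)

lemma expect_cs (h0 : 0 ≤ p) (h1 : p ≤ 1) (f g : (ι → Bool) → ℝ) :
    (expect p fun x => f x * g x) ^ 2 ≤
      (expect p fun x => f x ^ 2) * expect p fun x => g x ^ 2 :=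
  sum_sq_cs _ _ _ _ fun x _ => wt_nonneg h0 h1 x

lemma poly_update (c : Finset ι → ℝ) (s : Finset ι) (e : ι) (he : e ∉ s) (x : ι → Bool)
    (b : Bool) : poly p c s (Function.update x e b) = poly p c s x := by
  refine Finset.sum_congr rfl fun T hT => ?_
  rw [chi, chi]
  congr 1
  refine Finset.prod_congr rfl fun i hi => ?_
  rw [Function.update_of_ne]
  rintro rfl
  exact he (Finset.mem_powerset.mp hT hi)

lemma moment_four (h0 : 0 < p) (h1 : p < 1) (s : Finset ι) :
    ∀ (D : ℕ) (c : Finset ι → ℝ), (∀ T, D < T.card → c T = 0) →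
      expect p (fun x => poly p c s x ^ 4) ≤
        (16 / (p * (1 - p))) ^ D * polySq p c s ^ 2 := by
  have hσ : 0 < p * (1 - p) := mul_pos h0 (by linarith)
  have hσ1 : p * (1 - p) ≤ 1 := by nlinarith
  set σ := p * (1 - p) with hσdef
  set K := 16 / σ with hK
  have hK16 : 16 ≤ K := by rw [hK, le_div_iff₀ hσ]; nlinarith
  have hKσ : σ * K = 16 := by rw [hK]; field_simp
  induction s using Finset.induction_on with
  | empty =>
    intro D c _
    simp only [poly, polySq, Finset.powerset_empty, Finset.sum_singleton, chi, Finset.prod_empty,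
      mul_one, Finset.card_empty, pow_zero, expect_const]
    have : (1 : ℝ) ≤ K ^ D := one_le_pow₀ (by linarith)
    calc c ∅ ^ 4 = 1 * (c ∅ ^ 2) ^ 2 := by ring
      _ ≤ _ := mul_le_mul_of_nonneg_right this (sq_nonneg _)
  | insert e s he ih =>
    intro D c hc
    set c' : Finset ι → ℝ := fun T => if e ∈ T then 0 else c (insert e T) with hc'
    set a := poly p c s with ha
    set b := poly p c' s with hb
    have hc'eq : ∀ T ∈ s.powerset, c' T = c (insert e T) := by
      intro T hT
      have : e ∉ T := fun h => he (Finset.mem_powerset.mp hT h)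
      simp [hc', this]
    have hG : ∀ x, poly p c (insert e s) x = a x + bv p (x e) * b x := by
      intro x
      rw [ha, hb, poly, Finset.sum_powerset_insert he, poly, poly, Finset.mul_sum]
      congr 1
      refine Finset.sum_congr rfl fun T hT => ?_
      have : e ∉ T := fun h => he (Finset.mem_powerset.mp hT h)
      rw [hc'eq T hT, chi, Finset.prod_insert this, chi]
      ring
    have hS : polySq p c (insert e s) = polySq p c s + σ * polySq p c' s := by
      rw [polySq, Finset.sum_powerset_insert he, polySq, polySq, Finset.mul_sum]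
      congr 1
      refine Finset.sum_congr rfl fun T hT => ?_
      have : e ∉ T := fun h => he (Finset.mem_powerset.mp hT h)
      rw [hc'eq T hT, Finset.card_insert_of_notMem this]
      ring
    have hA := ih D c hc
    rw [← ha] at hA
    have hB : K * expect p (fun x => b x ^ 4) ≤ K ^ D * polySq p c' s ^ 2 := by
      cases D with
      | zero =>
        have hzero : ∀ T, c' T = 0 := by
          intro T
          simp only [hc']
          split_ifs with h
          · rfl
          · exact hc _ (by rw [Finset.card_insert_of_notMem h]; omega)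
        simp [hb, poly, polySq, hzero, expect_const]
      | succ D =>
        have h := ih D c' (by
          intro T hT
          simp only [hc']
          split_ifs with h
          · rfl
          · exact hc _ (by rw [Finset.card_insert_of_notMem h]; omega))
        rw [← hb] at h
        rw [pow_succ', mul_assoc]
        exact mul_le_mul_of_nonneg_left h (by linarith)
    set EA := expect p (fun x => a x ^ 4)
    set EB := expect p (fun x => b x ^ 4)
    set EX := expect p (fun x => a x ^ 2 * b x ^ 2)
    set SA := polySq p c s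
    set SB := polySq p c' s
    have hEA : 0 ≤ EA := expect_nonneg h0.le h1.le fun x => by positivity
    have hEB : 0 ≤ EB := expect_nonneg h0.le h1.le fun x => by positivity
    have hSA : 0 ≤ SA := Finset.sum_nonneg fun T _ => by positivity
    have hSB : 0 ≤ SB := Finset.sum_nonneg fun T _ => by positivity
    have hKD : 0 ≤ K ^ D := pow_nonneg (by linarith) _
    have hX : 4 * EX ≤ K ^ D * SA * SB := by
      have hX2 : EX ^ 2 ≤ EA * EB := by
        have h := expect_cs h0.le h1.le (fun x => a x ^ 2) (fun x => b x ^ 2)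
        simpa only [← pow_mul] using h
      have h16 : 16 * EB ≤ K ^ D * SB ^ 2 :=
        le_trans (mul_le_mul_of_nonneg_right hK16 hEB) hB
      have : (4 * EX) ^ 2 ≤ (K ^ D * SA * SB) ^ 2 := by
        calc (4 * EX) ^ 2 = 16 * EX ^ 2 := by ring
          _ ≤ EA * (16 * EB) := by nlinarith
          _ ≤ (K ^ D * SA ^ 2) * (K ^ D * SB ^ 2) :=
            mul_le_mul hA h16 (by positivity) (by positivity)
          _ = _ := by ring
      exact abs_le_of_sq_le_sq' this (by positivity) |>.2
    have hB3 : 3 * σ * EB ≤ K ^ D * σ ^ 2 * SB ^ 2 := by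
      calc 3 * σ * EB ≤ 16 * σ * EB := by nlinarith
        _ = σ ^ 2 * (K * EB) := by rw [← hKσ]; ring
        _ ≤ σ ^ 2 * (K ^ D * SB ^ 2) := mul_le_mul_of_nonneg_left hB (sq_nonneg _)
        _ = _ := by ring
    have hdep : ∀ (i j : ℕ) (x : ι → Bool) (t : Bool),
        a (Function.update x e t) ^ i * b (Function.update x e t) ^ j = a x ^ i * b x ^ j := by
      intro i j x t
      rw [ha, hb, poly_update c s e he, poly_update c' s e he]
    have hexp : expect p (fun x => poly p c (insert e s) x ^ 4) =
        EA + 6 * σ * EX + 4 * (σ * (1 - 2 * p)) * expect p (fun x => a x ^ 1 * b x ^ 3) +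
          σ * (p ^ 3 + (1 - p) ^ 3) * EB := by
      have e1 : expect p (fun x => bv p (x e) * (a x ^ 3 * b x ^ 1)) = 0 := by
        rw [expect_indep e (bv p) _ (fun x t => hdep 3 1 x t)]
        simp only [bv, if_true, Bool.false_eq_true, if_false]; ring
      have e2 : expect p (fun x => bv p (x e) ^ 2 * (a x ^ 2 * b x ^ 2)) = σ * EX := by
        rw [expect_indep e (fun t => bv p t ^ 2) _ (fun x t => hdep 2 2 x t)]
        simp only [bv, hσdef, EX, if_true, Bool.false_eq_true, if_false]; ring
      have e3 : expect p (fun x => bv p (x e) ^ 3 * (a x ^ 1 * b x ^ 3)) =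
          σ * (1 - 2 * p) * expect p (fun x => a x ^ 1 * b x ^ 3) := by
        rw [expect_indep e (fun t => bv p t ^ 3) _ (fun x t => hdep 1 3 x t)]
        simp only [bv, hσdef, if_true, Bool.false_eq_true, if_false]; ring
      have e4 : expect p (fun x => bv p (x e) ^ 4 * (a x ^ 0 * b x ^ 4)) =
          σ * (p ^ 3 + (1 - p) ^ 3) * EB := by
        rw [expect_indep e (fun t => bv p t ^ 4) _ (fun x t => hdep 0 4 x t)]
        simp only [bv, hσdef, EB, if_true, Bool.false_eq_true, if_false]; ring
      have e0 : (fun x => poly p c (insert e s) x ^ 4) = fun x =>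
          a x ^ 4 + 4 * (bv p (x e) * (a x ^ 3 * b x ^ 1)) +
            6 * (bv p (x e) ^ 2 * (a x ^ 2 * b x ^ 2)) +
            4 * (bv p (x e) ^ 3 * (a x ^ 1 * b x ^ 3)) +
            bv p (x e) ^ 4 * (a x ^ 0 * b x ^ 4) := by
        funext x; rw [hG]; ring
      rw [e0, expect_add, expect_add, expect_add, expect_add, expect_smul, expect_smul,
        expect_smul, e1, e2, e3, e4]
      ring
    have hcross : 4 * (σ * (1 - 2 * p)) * expect p (fun x => a x ^ 1 * b x ^ 3) ≤
        2 * σ * EX + 2 * σ * (1 - 2 * p) ^ 2 * EB := by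
      rw [← expect_smul, ← expect_smul, ← expect_smul, ← expect_add]
      refine expect_mono h0.le h1.le fun x => ?_
      have := mul_nonneg hσ.le (sq_nonneg (a x * b x - (1 - 2 * p) * b x ^ 2))
      nlinarith
    have hcoef : σ * (p ^ 3 + (1 - p) ^ 3) * EB + 2 * σ * (1 - 2 * p) ^ 2 * EB ≤
        3 * σ * EB := by
      have : p ^ 3 + (1 - p) ^ 3 + 2 * (1 - 2 * p) ^ 2 ≤ 3 := by nlinarith
      nlinarith [mul_nonneg hσ.le hEB]
    rw [hexp, hS]
    have hXs : 8 * σ * EX ≤ 2 * σ * (K ^ D * SA * SB) := by nlinarith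
    calc _ ≤ K ^ D * SA ^ 2 + 2 * σ * (K ^ D * SA * SB) + K ^ D * σ ^ 2 * SB ^ 2 := by linarith
      _ = K ^ D * (SA + σ * SB) ^ 2 := by ring

lemma expect_poly_sq (c : Finset ι → ℝ) (g : (ι → Bool) → ℝ) :
    expect p (fun x => g x * poly p c Finset.univ x) = ∑ T : Finset ι, c T * co p g T := by
  simp only [poly, Finset.mul_sum, Finset.powerset_univ]
  rw [expect_sum]
  refine Finset.sum_congr rfl fun T _ => ?_
  rw [co, ← expect_smul]
  congr 1
  funext x
  ring

/-- The key low-degree bound for one resampled block `A`. -/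
lemma low_degree_block (h0 : 0 < p) (h1 : p < 1) (g : (ι → Bool) → ℝ)
    (hg : ∀ x, g x = 0 ∨ g x = 1) (A : Finset ι) (D : ℕ) :
    (∑ T ∈ (Finset.univ : Finset (Finset ι)).filter
        (fun T => T.card ≤ D ∧ (T ∩ A).Nonempty), specW p g T) ^ 2 ≤
      (16 / (p * (1 - p))) ^ D * (2 * (p * (1 - p)) * ∑ e ∈ A, infl p g e) ^ 3 := by
  have hσ : 0 < p * (1 - p) := mul_pos h0 (by linarith)
  set 𝒯 := (Finset.univ : Finset (Finset ι)).filter
    (fun T => T.card ≤ D ∧ (T ∩ A).Nonempty)
  set W := ∑ T ∈ 𝒯, specW p g T with hW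
  set K := 16 / (p * (1 - p))
  set h := fun x => g x - avg p A g x with hh
  set P := expect p (fun x => |h x|) with hP
  set c : Finset ι → ℝ := fun T => if T ∈ 𝒯 then co p g T / (p * (1 - p)) ^ T.card else 0 with hc
  set G := poly p c Finset.univ with hG
  have hP0 : 0 ≤ P := expect_nonneg h0.le h1.le fun _ => abs_nonneg _
  have hPle : P ≤ 2 * (p * (1 - p)) * ∑ e ∈ A, infl p g e := abs_sub_avg h0.le h1.le g A
  have hK : 0 ≤ K ^ D := by positivity
  have hW0 : 0 ≤ W := Finset.sum_nonneg fun T _ => specW_nonneg h0 h1 g T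
  have hEhG : expect p (fun x => h x * G x) = W := by
    rw [hG, expect_poly_sq, hW]
    rw [← Finset.sum_subset (Finset.subset_univ 𝒯) (f := fun T => c T * co p h T)]
    · refine Finset.sum_congr rfl fun T hT => ?_
      rw [hh, co_sub_avg A T (Finset.mem_filter.mp hT).2.2, hc]
      simp only [hT, if_true, specW]
      ring
    · intro T _ hT
      simp [hc, hT]
  have hsq : polySq p c Finset.univ = W := by
    rw [polySq, Finset.powerset_univ, hW,
      ← Finset.sum_subset (Finset.subset_univ 𝒯)
        (f := fun T => c T ^ 2 * (p * (1 - p)) ^ T.card)]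
    · refine Finset.sum_congr rfl fun T hT => ?_
      simp only [hc, hT, if_true, specW]
      field_simp
    · intro T _ hT
      simp [hc, hT]
  have hh1 : ∀ x, |h x| ≤ 1 := by
    intro x
    have hb : ∀ y, 0 ≤ g y ∧ g y ≤ 1 := fun y => by rcases hg y with h | h <;> simp [h]
    have h2 : 0 ≤ avg p A g x :=
      Finset.sum_nonneg fun y _ => mul_nonneg (ker_nonneg h0.le h1.le A x y) (hb y).1
    have h3 : avg p A g x ≤ 1 := by
      refine le_trans (Finset.sum_le_sum fun y _ => mul_le_mul_of_nonneg_left (hb y).2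
        (ker_nonneg h0.le h1.le A x y)) ?_
      simp [ker_sum]
    rw [abs_le]
    constructor <;> simp only [hh] <;> linarith [hb x]
  set Q := expect p (fun x => |h x| * G x ^ 2)
  have hQ0 : 0 ≤ Q := expect_nonneg h0.le h1.le fun _ => by positivity
  have hw : ∀ x ∈ (Finset.univ : Finset (ι → Bool)), 0 ≤ wt p x * |h x| :=
    fun x _ => mul_nonneg (wt_nonneg h0.le h1.le x) (abs_nonneg _)
  have s1 : W ^ 2 ≤ P * Q := by
    rw [← hEhG]
    have hle : |expect p (fun x => h x * G x)| ≤ expect p (fun x => |h x| * |G x|) := by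
      refine (Finset.abs_sum_le_sum_abs _ _).trans (le_of_eq ?_)
      exact Finset.sum_congr rfl fun x _ => by
        rw [abs_mul, abs_mul, abs_of_nonneg (wt_nonneg h0.le h1.le x)]
    have hcs := sum_sq_cs Finset.univ (fun x => wt p x * |h x|) (fun _ => 1) (fun x => |G x|) hw
    calc expect p (fun x => h x * G x) ^ 2
        ≤ (expect p fun x => |h x| * |G x|) ^ 2 := by
          rw [← sq_abs]; exact pow_le_pow_left₀ (abs_nonneg _) hle 2
      _ ≤ P * Q := by
          simpa only [expect, hP, Q, one_mul, one_pow, mul_one, sq_abs, mul_assoc] using hcs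
  have s2 : Q ^ 2 ≤ P * (K ^ D * W ^ 2) := by
    have hcs := expect_cs h0.le h1.le (fun x => |h x|) (fun x => G x ^ 2)
    refine hcs.trans (mul_le_mul ?_ ?_ (expect_nonneg h0.le h1.le fun _ => by positivity) hP0)
    · refine expect_mono h0.le h1.le fun x => ?_
      calc |h x| ^ 2 = |h x| * |h x| := sq _
        _ ≤ |h x| * 1 := mul_le_mul_of_nonneg_left (hh1 x) (abs_nonneg _)
        _ = _ := mul_one _
    · rw [← hsq]
      simp only [← pow_mul]
      refine moment_four h0 h1 Finset.univ D c fun T hT => ?_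
      simp only [hc]
      rw [if_neg]
      intro hm
      have := (Finset.mem_filter.mp hm).2.1
      omega
  have s3 : W ^ 4 ≤ K ^ D * P ^ 3 * W ^ 2 := by
    calc W ^ 4 = (W ^ 2) ^ 2 := by ring
      _ ≤ (P * Q) ^ 2 := pow_le_pow_left₀ (sq_nonneg _) s1 2
      _ = P ^ 2 * Q ^ 2 := by ring
      _ ≤ P ^ 2 * (P * (K ^ D * W ^ 2)) := mul_le_mul_of_nonneg_left s2 (sq_nonneg _)
      _ = _ := by ring
  have s4 : W ^ 2 ≤ K ^ D * P ^ 3 := by
    rcases eq_or_lt_of_le hW0 with hz | hpos
    · rw [← hz]
      calc (0 : ℝ) ^ 2 = 0 := by ring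
        _ ≤ _ := by positivity
    · have : W ^ 2 * W ^ 2 ≤ K ^ D * P ^ 3 * W ^ 2 := by rw [← pow_add]; exact s3
      exact le_of_mul_le_mul_right this (by positivity)
  exact s4.trans (mul_le_mul_of_nonneg_left (pow_le_pow_left₀ hP0 hPle 3) hK)

end Vale.Agent.P063
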