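import Mathlib

/-!
The notions of the Friedgut–Kalai threshold-width question: uniform hypergraphs on a labelled
vertex set, vertex-permutation invariant increasing properties, threshold width.
-/

namespace Vale.Agent.P063

/-- An `r`-element subset of the vertex set `Fin n`. -/
abbrev Edge (n r : ℕ) := {s : Finset (Fin n) // s.card = r}

/-- A simple `r`-uniform hypergraph on `Fin n`, as a point of the cube indexed by edges. -/
abbrev Hypergraph (n r : ℕ) := Edge n r → Bool

/-- The image of an edge under a permutation of the vertices. -/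
def permEdge {n r : ℕ} (σ : Equiv.Perm (Fin n)) (e : Edge n r) : Edge n r :=
  ⟨e.1.map σ.toEmbedding, by rw [Finset.card_map]; exact e.2⟩

/-- Invariance of a property under all permutations of the vertices. -/
def IsInvariant {n r : ℕ} (P : Set (Hypergraph n r)) : Prop :=
  ∀ (σ : Equiv.Perm (Fin n)) (x : Hypergraph n r), x ∈ P → (fun e => x (permEdge σ e)) ∈ P

/-- Adding edges preserves membership. -/
def IsIncreasing {n r : ℕ} (P : Set (Hypergraph n r)) : Prop :=
  ∀ x y : Hypergraph n r, (∀ e, x e = true → y e = true) → x ∈ P → y ∈ P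

/-- The probability that the random hypergraph with edge probability `p` lies in `P`. -/
noncomputable def mu {n r : ℕ} (p : ℝ) (P : Set (Hypergraph n r)) : ℝ :=
  ∑ x : Hypergraph n r,
    P.indicator (fun y => ∏ e : Edge n r, if y e = true then p else 1 - p) x

/-- The quantile `p_a`. -/
noncomputable def pQuantile {n r : ℕ} (a : ℝ) (P : Set (Hypergraph n r)) : ℝ :=
  sInf {p : ℝ | p ∈ Set.Icc 0 1 ∧ a ≤ mu p P}

/-- The threshold width `p_{1-ε} - p_ε`. -/
noncomputable def width {n r : ℕ} (ε : ℝ) (P : Set (Hypergraph n r)) : ℝ :=
  pQuantile (1 - ε) P - pQuantile ε P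

end Vale.Agent.P063
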