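import Mathlib
import Vale.Agent.P063.Cube

/-!
Restrictions of functions on the cube, and the low-degree bound for a symmetric family of blocks.
-/

namespace Vale.Agent.P063

open Finset

variable {ι : Type*} [Fintype ι] [DecidableEq ι] (P : ι → Prop) [DecidablePred P] {p : ℝ}

/-- Glue the values on `P` and off `P`. -/
def combine (y : {i // P i} → Bool) (z : {i // ¬ P i} → Bool) : ι → Bool :=
  fun i => if h : P i then y ⟨i, h⟩ else z ⟨i, h⟩

/-- The function obtained by fixing the coordinates off `P`. -/
def restr (g : (ι → Bool) → ℝ) (z : {i // ¬ P i} → Bool) : ({i // P i} → Bool) → ℝ :=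
  fun y => g (combine P y z)

/-- The union of a set inside `P` and one outside. -/
def joinSet (T : Finset {i // P i}) (R : Finset {i // ¬ P i}) : Finset ι :=
  T.map (Function.Embedding.subtype _) ∪ R.map (Function.Embedding.subtype _)

omit [Fintype ι] in
lemma joinSet_disjoint (T : Finset {i // P i}) (R : Finset {i // ¬ P i}) :
    Disjoint (T.map (Function.Embedding.subtype _)) (R.map (Function.Embedding.subtype _)) := by
  rw [Finset.disjoint_left]
  intro a ha hb
  simp only [Finset.mem_map, Function.Embedding.coe_subtype] at ha hb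
  obtain ⟨x, _, rfl⟩ := ha
  obtain ⟨y, _, hy⟩ := hb
  exact y.2 (hy ▸ x.2)

lemma wt_combine (y : {i // P i} → Bool) (z : {i // ¬ P i} → Bool) :
    wt p (combine P y z) = wt p y * wt p z := by
  unfold wt
  rw [← Fintype.prod_subtype_mul_prod_subtype P]
  congr 1
  · exact Finset.prod_congr rfl fun i _ => by simp [combine, i.2]
  · exact Finset.prod_congr rfl fun i _ => by simp [combine, i.2]

lemma expect_split (F : (ι → Bool) → ℝ) :
    expect p F = expect p (fun z : {i // ¬ P i} → Bool =>
      expect p (fun y : {i // P i} → Bool => F (combine P y z))) := by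
  unfold expect
  rw [← (Equiv.piEquivPiSubtypeProd P (fun _ => Bool)).symm.sum_comp, Fintype.sum_prod_type,
    Finset.sum_comm]
  refine Finset.sum_congr rfl fun z _ => ?_
  rw [Finset.mul_sum]
  refine Finset.sum_congr rfl fun y _ => ?_
  have : (Equiv.piEquivPiSubtypeProd P (fun _ => Bool)).symm (y, z) = combine P y z := rfl
  rw [this, wt_combine]
  ring

omit [Fintype ι] in
lemma chi_join (T : Finset {i // P i}) (R : Finset {i // ¬ P i})
    (y : {i // P i} → Bool) (z : {i // ¬ P i} → Bool) :
    chi p (joinSet P T R) (combine P y z) = chi p T y * chi p R z := by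
  unfold chi joinSet
  rw [Finset.prod_union (joinSet_disjoint P T R), Finset.prod_map, Finset.prod_map]
  congr 1
  · exact Finset.prod_congr rfl fun i _ => by simp [combine, i.2]
  · exact Finset.prod_congr rfl fun i _ => by simp [combine, i.2]

lemma co_restr (g : (ι → Bool) → ℝ) (T : Finset {i // P i}) (R : Finset {i // ¬ P i}) :
    co p (fun z => co p (restr P g z) T) R = co p g (joinSet P T R) := by
  unfold co
  rw [expect_split P]
  congr 1
  funext z
  simp only [chi_join, restr]
  rw [mul_comm, ← expect_smul]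
  congr 1
  funext y
  ring

omit [Fintype ι] in
lemma joinSet_subtype (T : Finset {i // P i}) (R : Finset {i // ¬ P i}) :
    (joinSet P T R).subtype P = T ∧ (joinSet P T R).subtype (fun i => ¬ P i) = R := by
  constructor <;> ext ⟨a, ha⟩ <;> simp [joinSet, ha]

omit [Fintype ι] in
lemma subtype_joinSet (S : Finset ι) :
    joinSet P (S.subtype P) (S.subtype (fun i => ¬ P i)) = S := by
  ext a
  by_cases h : P a <;> simp [joinSet, h]

lemma sum_specW_restr (h0 : 0 < p) (h1 : p < 1) (g : (ι → Bool) → ℝ)
    (𝒯 : Finset (Finset {i // P i})) :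
    ∑ S ∈ (Finset.univ : Finset (Finset ι)).filter (fun S => S.subtype P ∈ 𝒯), specW p g S =
      expect p (fun z => ∑ T ∈ 𝒯, specW p (restr P g z) T) := by
  have hσ : (p * (1 - p)) ≠ 0 := (mul_pos h0 (by linarith)).ne'
  rw [expect_sum]
  have hT : ∀ T : Finset {i // P i}, expect p (fun z => specW p (restr P g z) T) =
      ∑ R : Finset {i // ¬ P i}, specW p g (joinSet P T R) := by
    intro T
    have e : (fun z => specW p (restr P g z) T) =
        fun z => (1 / (p * (1 - p)) ^ T.card) * (co p (restr P g z) T) ^ 2 := by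
      funext z; rw [specW]; ring
    rw [e, expect_smul, parseval h0 h1, Finset.mul_sum]
    refine Finset.sum_congr rfl fun R _ => ?_
    rw [specW, specW, co_restr, joinSet, Finset.card_union_of_disjoint (joinSet_disjoint P T R),
      Finset.card_map, Finset.card_map, pow_add]
    field_simp
  simp only [hT]
  rw [← Finset.sum_product']
  refine Finset.sum_nbij' (fun S => (S.subtype P, S.subtype fun i => ¬ P i))
    (fun TR => joinSet P TR.1 TR.2) ?_ ?_ ?_ ?_ ?_
  · intro S hS; simpa using hS
  · intro TR hTR
    rw [Finset.mem_product] at hTR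
    simp [(joinSet_subtype P TR.1 TR.2).1, hTR.1]
  · intro S _; exact subtype_joinSet P S
  · intro TR _
    exact Prod.ext (joinSet_subtype P TR.1 TR.2).1 (joinSet_subtype P TR.1 TR.2).2
  · intro S _; rw [subtype_joinSet]

lemma update_combine (y : {i // P i} → Bool) (z : {i // ¬ P i} → Bool) (e : {i // P i})
    (b : Bool) :
    Function.update (combine P y z) e.1 b = combine P (Function.update y e b) z := by
  funext i
  by_cases hi : i = e.1
  · subst hi; simp [combine, e.2]
  · by_cases h : P i
    · have : (⟨i, h⟩ : {i // P i}) ≠ e := fun hh => hi (congrArg Subtype.val hh)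
      simp [combine, hi, h, this]
    · simp [combine, hi, h]

lemma sum_infl_restr (h0 : 0 ≤ p) (h1 : p ≤ 1) (g : (ι → Bool) → ℝ) :
    expect p (fun z => ∑ e : {i // P i}, infl p (restr P g z) e) ≤ ∑ e, infl p g e := by
  rw [expect_sum]
  have h : ∀ e : {i // P i}, expect p (fun z => infl p (restr P g z) e) = infl p g e.1 := by
    intro e
    unfold infl restr
    rw [expect_split P (p := p) (fun x => |g (Function.update x e.1 true) -
      g (Function.update x e.1 false)|)]
    simp only [update_combine]
  simp only [h]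
  rw [← Finset.sum_subtype (Finset.univ.filter P) (by simp) (fun e => infl p g e)]
  exact Finset.sum_le_sum_of_subset_of_nonneg (Finset.subset_univ _)
    fun e _ _ => infl_nonneg h0 h1 g e

omit P in
lemma expect_comp (τ : Equiv.Perm ι) (F : (ι → Bool) → ℝ) :
    expect p (fun x => F (fun i => x (τ i))) = expect p F := by
  unfold expect
  rw [← (Equiv.arrowCongr τ.symm (Equiv.refl Bool)).sum_comp (fun x => wt p x * F x)]
  refine Finset.sum_congr rfl fun x _ => ?_
  have : (Equiv.arrowCongr τ.symm (Equiv.refl Bool)) x = fun i => x (τ i) := by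
    funext i; simp [Equiv.arrowCongr]
  rw [this]
  congr 1
  exact (Equiv.prod_comp τ (fun i => bw p (x i))).symm

omit P in
lemma infl_comp (τ : Equiv.Perm ι) (g : (ι → Bool) → ℝ)
    (hg : ∀ x, g (fun i => x (τ i)) = g x) (e : ι) : infl p g (τ e) = infl p g e := by
  unfold infl
  conv_rhs => rw [← expect_comp τ]
  congr 1
  funext x
  have hu : ∀ b, Function.update (fun i => x (τ i)) e b =
      fun i => Function.update x (τ e) b (τ i) := by
    intro b
    funext i
    by_cases hi : i = e
    · subst hi; simp
    · have : τ i ≠ τ e := fun hh => hi (τ.injective hh)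
      simp [hi, this]
  simp only [hu, hg]

omit P in
/-- If blocks `st u`, `u ∈ M`, cover the cube and have equal total influence, the spectral weight
of the nonempty sets of size at most `D` is small compared with the total influence. -/
lemma symmetric_blocks {κ : Type*} (h0 : 0 < p) (h1 : p < 1) (g : (ι → Bool) → ℝ)
    (hg : ∀ x, g x = 0 ∨ g x = 1) (M : Finset κ) (st : κ → Finset ι) (r D : ℕ)
    (hcover : ∀ e, ∃ u ∈ M, e ∈ st u) (hmult : ∀ e, (M.filter (fun u => e ∈ st u)).card ≤ r)
    (heq : ∀ u ∈ M, ∀ v ∈ M, ∑ e ∈ st u, infl p g e = ∑ e ∈ st v, infl p g e)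
    (P₀ η : ℝ) (hP₀ : 0 < P₀) (hη0 : 0 ≤ η) (hη : (16 / (p * (1 - p))) ^ D * P₀ ≤ η ^ 2) :
    ∑ T ∈ (Finset.univ : Finset (Finset ι)).filter (fun T => T.Nonempty ∧ T.card ≤ D),
        specW p g T ≤
      (η + 1 / (P₀ * M.card)) * (2 * r * (p * (1 - p)) * ∑ e, infl p g e) := by
  have hσ : 0 < p * (1 - p) := mul_pos h0 (by linarith)
  have hJ : 0 ≤ ∑ e, infl p g e := Finset.sum_nonneg fun e _ => infl_nonneg h0.le h1.le g e
  rcases M.eq_empty_or_nonempty with rfl | ⟨u₀, hu₀⟩
  · rw [Finset.sum_eq_zero]
    · positivity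
    · intro T hT
      obtain ⟨e, _⟩ := (Finset.mem_filter.mp hT).2.1
      obtain ⟨u, hu, _⟩ := hcover e
      simp at hu
  have hm : (0 : ℝ) < M.card := by exact_mod_cast Finset.card_pos.mpr ⟨u₀, hu₀⟩
  set X := 2 * (p * (1 - p)) * ∑ e ∈ st u₀, infl p g e with hX
  have hX0 : 0 ≤ X :=
    mul_nonneg (by positivity) (Finset.sum_nonneg fun e _ => infl_nonneg h0.le h1.le g e)
  have hmX : (M.card : ℝ) * X ≤ 2 * r * (p * (1 - p)) * ∑ e, infl p g e := by
    have hsum : (M.card : ℝ) * ∑ e ∈ st u₀, infl p g e ≤ r * ∑ e, infl p g e := by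
      calc (M.card : ℝ) * ∑ e ∈ st u₀, infl p g e = ∑ u ∈ M, ∑ e ∈ st u, infl p g e := by
            rw [Finset.sum_congr rfl fun u hu => heq u hu u₀ hu₀, Finset.sum_const, nsmul_eq_mul]
        _ = ∑ e, ((M.filter (fun u => e ∈ st u)).card : ℝ) * infl p g e := by
            rw [Finset.sum_congr rfl fun u _ =>
              (Fintype.sum_ite_mem (st u) (fun e => infl p g e)).symm, Finset.sum_comm]
            refine Finset.sum_congr rfl fun e _ => ?_
            rw [← Finset.sum_filter, Finset.sum_const, nsmul_eq_mul]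
        _ ≤ ∑ e, (r : ℝ) * infl p g e := Finset.sum_le_sum fun e _ =>
            mul_le_mul_of_nonneg_right (by exact_mod_cast hmult e) (infl_nonneg h0.le h1.le g e)
        _ = _ := (Finset.mul_sum _ _ _).symm
    have := mul_le_mul_of_nonneg_left hsum (by positivity : (0 : ℝ) ≤ 2 * (p * (1 - p)))
    rw [hX]
    linarith
  set Y := 2 * r * (p * (1 - p)) * ∑ e, infl p g e
  have hY : 0 ≤ Y := by positivity
  by_cases hc : X ≤ P₀
  · have hblock : ∀ u ∈ M, ∑ T ∈ (Finset.univ : Finset (Finset ι)).filter
        (fun T => T.card ≤ D ∧ (T ∩ st u).Nonempty), specW p g T ≤ η * X := by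
      intro u hu
      have h := low_degree_block h0 h1 g hg (st u) D
      rw [heq u hu u₀ hu₀, ← hX] at h
      refine (abs_le_of_sq_le_sq' (h.trans ?_) (mul_nonneg hη0 hX0)).2
      calc (16 / (p * (1 - p))) ^ D * X ^ 3 = ((16 / (p * (1 - p))) ^ D * X) * X ^ 2 := by ring
        _ ≤ η ^ 2 * X ^ 2 := mul_le_mul_of_nonneg_right
            ((mul_le_mul_of_nonneg_left hc (by positivity)).trans hη) (sq_nonneg _)
        _ = _ := by ring
    calc ∑ T ∈ (Finset.univ : Finset (Finset ι)).filter (fun T => T.Nonempty ∧ T.card ≤ D),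
          specW p g T
        ≤ ∑ u ∈ M, ∑ T ∈ (Finset.univ : Finset (Finset ι)).filter
            (fun T => T.card ≤ D ∧ (T ∩ st u).Nonempty), specW p g T := by
          simp only [Finset.sum_filter]
          rw [Finset.sum_comm]
          refine Finset.sum_le_sum fun T _ => ?_
          split_ifs with hT
          · obtain ⟨e, he⟩ := hT.1
            obtain ⟨u, hu, heu⟩ := hcover e
            refine le_trans (le_of_eq ?_) (Finset.single_le_sum (fun v _ => ?_) hu)
            · rw [if_pos ⟨hT.2, ⟨e, Finset.mem_inter.mpr ⟨he, heu⟩⟩⟩]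
            · split_ifs
              · exact specW_nonneg h0 h1 g T
              · exact le_rfl
          · refine Finset.sum_nonneg fun v _ => ?_
            split_ifs
            · exact specW_nonneg h0 h1 g T
            · exact le_rfl
      _ ≤ ∑ u ∈ M, η * X := Finset.sum_le_sum hblock
      _ = η * (M.card * X) := by rw [Finset.sum_const, nsmul_eq_mul]; ring
      _ ≤ η * Y := mul_le_mul_of_nonneg_left hmX hη0
      _ ≤ _ := mul_le_mul_of_nonneg_right (le_add_of_nonneg_right (by positivity)) hY
  · have hone : (1 : ℝ) ≤ 1 / (P₀ * M.card) * Y := by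
      rw [div_mul_eq_mul_div, one_mul, le_div_iff₀ (by positivity), one_mul]
      calc P₀ * M.card ≤ X * M.card :=
            mul_le_mul_of_nonneg_right (le_of_not_ge hc) hm.le
        _ ≤ Y := by linarith
    refine le_trans (Finset.sum_le_sum_of_subset_of_nonneg (Finset.subset_univ _)
      (fun T _ _ => specW_nonneg h0 h1 g T)) ?_
    refine (specW_total_le_one h0 h1 g hg).trans (hone.trans ?_)
    exact mul_le_mul_of_nonneg_right (le_add_of_nonneg_left hη0) hY

end Vale.Agent.P063
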