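import Mathlib
import Vale.Agent.P063.Restrict
import Vale.Agent.P063.Defs

/-!
Spectral weight of symmetric hypergraph functions on sets of bounded size.
-/

namespace Vale.Agent.P063

open Finset

variable {n r : ℕ} {p : ℝ}

/-- The vertices covered by a set of edges. -/
def verts (S : Finset (Edge n r)) : Finset (Fin n) := S.biUnion fun e => e.1

/-- The degree of a vertex in a set of edges. -/
def degree (S : Finset (Edge n r)) (u : Fin n) : ℕ := (S.filter fun e => u ∈ e.1).card

/-- The edge meets the vertex set. -/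
abbrev Meets (M : Finset (Fin n)) (e : Edge n r) : Prop := (e.1 ∩ M).Nonempty

lemma card_le_verts_pow (S : Finset (Edge n r)) : S.card ≤ (verts S).card ^ r := by
  refine le_trans ?_ (Nat.choose_le_pow _ r)
  rw [← Finset.card_powersetCard, ← Finset.card_map (Function.Embedding.subtype _)]
  refine Finset.card_le_card fun s hs => ?_
  simp only [Finset.mem_map, Function.Embedding.coe_subtype] at hs
  obtain ⟨e, he, rfl⟩ := hs
  rw [Finset.mem_powersetCard]
  exact ⟨Finset.subset_biUnion_of_mem (fun e : Edge n r => e.1) he, e.2⟩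

lemma verts_card_le (S : Finset (Edge n r)) : (verts S).card ≤ r * S.card := by
  refine Finset.card_biUnion_le.trans ?_
  rw [Finset.sum_congr rfl (fun e (_ : e ∈ S) => e.2), Finset.sum_const, smul_eq_mul, mul_comm]

lemma sum_degree (S : Finset (Edge n r)) : ∑ u ∈ verts S, degree S u = r * S.card := by
  simp only [degree, Finset.card_filter]
  rw [Finset.sum_comm, Finset.sum_congr rfl (g := fun _ => r)]
  · rw [Finset.sum_const, smul_eq_mul, mul_comm]
  · intro e he
    rw [← Finset.card_filter,
      Finset.filter_mem_eq_inter]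
    rw [Finset.inter_eq_right.mpr (show e.1 ⊆ verts S from
      Finset.subset_biUnion_of_mem (fun e : Edge n r => e.1) he)]
    exact e.2

lemma verts_card_pos (hr : 1 ≤ r) {S : Finset (Edge n r)} (hS : S.Nonempty) :
    1 ≤ (verts S).card := by
  obtain ⟨e, he⟩ := hS
  calc 1 ≤ r := hr
    _ = e.1.card := e.2.symm
    _ ≤ _ := Finset.card_le_card (Finset.subset_biUnion_of_mem (fun e : Edge n r => e.1) he)

/-- At least half of the covered vertices have degree at most `2 r k^(r-1)`. -/
lemma many_low (hr : 1 ≤ r) (k : ℕ) (S : Finset (Edge n r)) (hS : S.card ≤ k ^ r) :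
    (verts S).card ≤
      2 * ((verts S).filter fun u => degree S u ≤ 2 * r * k ^ (r - 1)).card := by
  set v := (verts S).card
  set D := 2 * r * k ^ (r - 1) with hD
  have hSv : S.card ≤ k ^ (r - 1) * v := by
    have hk : k ^ r = k ^ (r - 1) * k := by rw [← pow_succ, Nat.sub_add_cancel hr]
    have hv : v ^ r = v ^ (r - 1) * v := by rw [← pow_succ, Nat.sub_add_cancel hr]
    by_cases h : k ≤ v
    · calc S.card ≤ k ^ r := hS
        _ = k ^ (r - 1) * k := hk
        _ ≤ _ := Nat.mul_le_mul_left _ h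
    · calc S.card ≤ v ^ r := card_le_verts_pow S
        _ = v ^ (r - 1) * v := hv
        _ ≤ _ := Nat.mul_le_mul_right _ (Nat.pow_le_pow_left (by omega) _)
  set hi := (verts S).filter fun u => ¬ degree S u ≤ D
  have hsplit : ((verts S).filter fun u => degree S u ≤ D).card + hi.card = v :=
    Finset.card_filter_add_card_filter_not _
  have h1 : hi.card * (D + 1) ≤ r * S.card := by
    rw [← sum_degree, ← smul_eq_mul]
    refine le_trans (Finset.card_nsmul_le_sum hi (degree S) (D + 1) fun u hu => ?_)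
      (Finset.sum_le_sum_of_subset (Finset.filter_subset _ _))
    have := (Finset.mem_filter.mp hu).2
    omega
  have h2 : 2 * (r * S.card) ≤ D * v := by
    rw [hD]
    calc 2 * (r * S.card) ≤ 2 * (r * (k ^ (r - 1) * v)) := by gcongr
      _ = _ := by ring
  have h3 : 2 * hi.card ≤ v := by
    by_contra hc
    have : (v + 1) * (D + 1) ≤ 2 * hi.card * (D + 1) := Nat.mul_le_mul_right _ (by omega)
    nlinarith
  omega

/-! ### Random vertex sets -/

/-- The vertex set of an indicator vector. -/
def toSet (x : Fin n → Bool) : Finset (Fin n) := Finset.univ.filter fun u => x u = true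

/-- A set of edges is caught by `M`: it meets `M` in a nonempty set of at most `D` edges. -/
def Caught (M : Finset (Fin n)) (D : ℕ) (S : Finset (Edge n r)) : Prop :=
  (S.subtype (Meets M)).Nonempty ∧ (S.subtype (Meets M)).card ≤ D

instance (M : Finset (Fin n)) (D : ℕ) (S : Finset (Edge n r)) : Decidable (Caught M D S) :=
  inferInstanceAs (Decidable (_ ∧ _))

lemma caught_prob (D : ℕ) (S : Finset (Edge n r)) (hv : 1 ≤ (verts S).card)
    (hlow : (verts S).card ≤ 2 * ((verts S).filter fun u => degree S u ≤ D).card) :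
    1 / 8 ≤ expect (1 / (2 * ((verts S).card : ℝ)))
      (fun x => if Caught (toSet x) D S then (1 : ℝ) else 0) := by
  set v := (verts S).card with hvdef
  set ρ := 1 / (2 * (v : ℝ)) with hρ
  have hv' : (1 : ℝ) ≤ v := by exact_mod_cast hv
  have hρ0 : 0 < ρ := by rw [hρ]; positivity
  have hρ2 : ρ ≤ 1 / 2 := by
    rw [hρ, div_le_div_iff₀ (by positivity) two_pos]; linarith
  set low := (verts S).filter fun u => degree S u ≤ D with hlowdef
  set f : Fin n → Fin n → Bool → ℝ := fun u w b =>
    if w = u then (if b then 1 else 0) else if w ∈ verts S then (if b then 0 else 1) else 1 with hf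
  have hfnn : ∀ u w b, 0 ≤ f u w b := by intro u w b; simp only [hf]; split_ifs <;> norm_num
  have hf1 : ∀ u w b, f u w b ≤ 1 := by intro u w b; simp only [hf]; split_ifs <;> norm_num
  have hone : ∀ u ∈ low, ∀ x : Fin n → Bool, ∏ w, f u w (x w) ≠ 0 →
      x u = true ∧ ∀ w ∈ verts S, w ≠ u → x w = false := by
    intro u _ x hne
    rw [Finset.prod_ne_zero_iff] at hne
    refine ⟨?_, fun w hw hwu => ?_⟩
    · have := hne u (Finset.mem_univ _); simpa [hf] using this
    · have := hne w (Finset.mem_univ _); simpa [hf, hwu, hw] using this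
  have hle : ∀ x, ∑ u ∈ low, ∏ w, f u w (x w) ≤
      if Caught (toSet x) D S then (1 : ℝ) else 0 := by
    intro x
    by_cases hz : ∀ u ∈ low, ∏ w, f u w (x w) = 0
    · rw [Finset.sum_eq_zero hz]; split_ifs <;> norm_num
    · push Not at hz
      obtain ⟨u, hu, hne⟩ := hz
      obtain ⟨hxu, hxw⟩ := hone u hu x hne
      rw [Finset.sum_eq_single_of_mem u hu]
      · have hmeet : S.filter (Meets (toSet x)) = S.filter (fun e => u ∈ e.1) := by
          ext e
          simp only [Finset.mem_filter, and_congr_right_iff]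
          intro he
          constructor
          · rintro ⟨w, hw⟩
            simp only [toSet, Finset.mem_inter, Finset.mem_filter, Finset.mem_univ, true_and] at hw
            by_contra hue
            have hwu : w ≠ u := by rintro rfl; exact hue hw.1
            have hwV : w ∈ verts S :=
              Finset.subset_biUnion_of_mem (fun e : Edge n r => e.1) he hw.1
            rw [hxw w hwV hwu] at hw
            exact Bool.false_ne_true hw.2
          · intro hue
            exact ⟨u, by simp [toSet, hue, hxu]⟩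
        have hcard : (S.subtype (Meets (toSet x))).card = degree S u := by
          rw [Finset.card_subtype, hmeet, degree]
        have hcaught : Caught (toSet x) D S := by
          obtain ⟨hu1, hu2⟩ := Finset.mem_filter.mp hu
          refine ⟨?_, hcard ▸ hu2⟩
          rw [← Finset.card_pos, hcard, degree, Finset.card_pos]
          obtain ⟨e, he, hue⟩ := Finset.mem_biUnion.mp hu1
          exact ⟨e, Finset.mem_filter.mpr ⟨he, hue⟩⟩
        rw [if_pos hcaught]
        exact Finset.prod_le_one (fun w _ => hfnn _ _ _) fun w _ => hf1 _ _ _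
      · intro w hw hwu
        by_contra hne'
        have h1 := hxw w (Finset.mem_filter.mp hw).1 hwu
        have h2 := (hone w hw x hne').1
        rw [h1] at h2
        exact Bool.false_ne_true h2
  refine le_trans ?_ (expect_mono hρ0.le (by linarith) hle)
  rw [expect_sum]
  have hterm : ∀ u ∈ low, ρ / 2 ≤ expect ρ fun x => ∏ w, f u w (x w) := by
    intro u hu
    rw [expect_prod]
    have huV : u ∈ verts S := (Finset.mem_filter.mp hu).1
    have e : ∏ w, (ρ * f u w true + (1 - ρ) * f u w false) =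
        ∏ w ∈ verts S, (if w = u then ρ else 1 - ρ) := by
      rw [← Fintype.prod_ite_mem (verts S) (fun w => if w = u then ρ else 1 - ρ)]
      refine Finset.prod_congr rfl fun w _ => ?_
      by_cases hwu : w = u
      · subst hwu; simp [hf, huV]
      · by_cases hw : w ∈ verts S <;> simp [hf, hwu, hw]
    rw [e, ← Finset.mul_prod_erase _ _ huV, if_pos rfl,
      Finset.prod_congr rfl (g := fun _ => 1 - ρ)
        (fun w hw => if_neg (Finset.ne_of_mem_erase hw)),
      Finset.prod_const, Finset.card_erase_of_mem huV, ← hvdef]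
    have hb := one_add_mul_le_pow (a := -ρ) (by linarith) (v - 1)
    have hvm : ((v - 1 : ℕ) : ℝ) * ρ ≤ 1 / 2 := by
      rw [hρ, mul_one_div, div_le_div_iff₀ (show (0 : ℝ) < 2 * (v : ℝ) by linarith) two_pos, Nat.cast_sub hv]
      simp; linarith
    rw [← sub_eq_add_neg] at hb
    nlinarith
  refine le_trans ?_ (Finset.sum_le_sum hterm)
  rw [Finset.sum_const, nsmul_eq_mul]
  have hl : (v : ℝ) ≤ 2 * low.card := by exact_mod_cast hlow
  have hρv : ρ * v = 1 / 2 := by rw [hρ]; field_simp
  nlinarith

lemma small_set_prob (ρ : ℝ) (h0 : 0 < ρ) (h1 : ρ < 1) (hn : 0 < n) (m : ℝ)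
    (hm : m ≤ ρ * n / 2) :
    expect ρ (fun x : Fin n → Bool => if ((toSet x).card : ℝ) < m then (1 : ℝ) else 0) ≤
      4 / (ρ * n) := by
  have hn' : (0 : ℝ) < n := by exact_mod_cast hn
  have hb : ∀ x : Fin n → Bool, ((toSet x).card : ℝ) - ρ * n = ∑ u, bv ρ (x u) := by
    intro x
    rw [toSet, Finset.card_filter, Nat.cast_sum]
    have : ∀ u, bv ρ (x u) = ((if x u = true then 1 else 0 : ℕ) : ℝ) - ρ := by
      intro u; cases x u <;> simp [bv]
    simp only [this, Finset.sum_sub_distrib, Finset.sum_const, Finset.card_univ, Fintype.card_fin,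
      nsmul_eq_mul]
    ring
  have hle : ∀ x : Fin n → Bool, (if ((toSet x).card : ℝ) < m then (1 : ℝ) else 0) ≤
      4 / (ρ * n) ^ 2 * (∑ u, bv ρ (x u)) ^ 2 := by
    intro x
    split_ifs with h
    · rw [div_mul_eq_mul_div, le_div_iff₀ (by positivity), one_mul, ← hb]
      have : ρ * n / 2 ≤ ρ * n - (toSet x).card := by linarith
      have h0' : 0 ≤ ρ * n / 2 := by positivity
      nlinarith
    · positivity
  refine (expect_mono h0.le h1.le hle).trans ?_
  rw [expect_smul]
  have hvar : expect ρ (fun x : Fin n → Bool => (∑ u, bv ρ (x u)) ^ 2) = n * (ρ * (1 - ρ)) := by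
    have : ∀ x : Fin n → Bool, (∑ u, bv ρ (x u)) ^ 2 =
        ∑ u, ∑ w, chi ρ {u} x * chi ρ {w} x := by
      intro x; simp [chi, sq, Finset.sum_mul_sum]
    simp only [this, expect_sum, expect_chi_mul]
    simp [Finset.sum_const, mul_comm]
  rw [hvar]
  calc 4 / (ρ * n) ^ 2 * (n * (ρ * (1 - ρ))) = 4 / (ρ * n) * (1 - ρ) := by field_simp
    _ ≤ 4 / (ρ * n) * 1 := mul_le_mul_of_nonneg_left (by linarith) (by positivity)
    _ = _ := mul_one _

/-! ### Symmetry -/

/-- Invariance of a function on the hypergraph cube under vertex permutations. -/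
def FnInvariant (g : Hypergraph n r → ℝ) : Prop :=
  ∀ (σ : Equiv.Perm (Fin n)) (x : Hypergraph n r), g (fun e => x (permEdge σ e)) = g x

lemma mem_permEdge (σ : Equiv.Perm (Fin n)) (e : Edge n r) (w : Fin n) :
    w ∈ (permEdge σ e).1 ↔ σ.symm w ∈ e.1 := by
  simp [permEdge, Finset.mem_map_equiv]

lemma permEdge_swap_swap (u v : Fin n) (e : Edge n r) :
    permEdge (Equiv.swap u v) (permEdge (Equiv.swap u v) e) = e := by
  ext w
  simp [mem_permEdge]

lemma stars_equal (g : Hypergraph n r → ℝ) (hinv : FnInvariant g) (M : Finset (Fin n))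
    (z : {e : Edge n r // ¬ Meets M e} → Bool) (u v : Fin n) (hu : u ∈ M) (hv : v ∈ M) :
    ∑ e ∈ (Finset.univ : Finset {e : Edge n r // Meets M e}).filter (fun e => u ∈ e.1.1),
        infl p (restr (Meets M) g z) e =
      ∑ e ∈ (Finset.univ : Finset {e : Edge n r // Meets M e}).filter (fun e => v ∈ e.1.1),
        infl p (restr (Meets M) g z) e := by
  set s := Equiv.swap u v with hs
  have hfix : ∀ e : Edge n r, ¬ Meets M e → permEdge s e = e := by
    intro e he
    have hw : ∀ w ∈ e.1, w ∉ M := fun w hw hwM => he ⟨w, Finset.mem_inter.mpr ⟨hw, hwM⟩⟩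
    ext w
    rw [mem_permEdge, hs, Equiv.symm_swap]
    by_cases h1 : w = u
    · subst h1
      simp only [Equiv.swap_apply_left]
      exact iff_of_false (fun h => hw _ h hv) (fun h => hw _ h hu)
    · by_cases h2 : w = v
      · subst h2
        simp only [Equiv.swap_apply_right]
        exact iff_of_false (fun h => hw _ h hu) (fun h => hw _ h hv)
      · rw [Equiv.swap_apply_of_ne_of_ne h1 h2]
  have hmeets : ∀ e : Edge n r, Meets M e → Meets M (permEdge s e) := by
    intro e he
    by_contra hne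
    have h := hfix _ hne
    rw [hs, permEdge_swap_swap] at h
    exact hne (by rw [← h]; exact he)
  let τ : Equiv.Perm {e : Edge n r // Meets M e} :=
    { toFun := fun e => ⟨permEdge s e.1, hmeets _ e.2⟩
      invFun := fun e => ⟨permEdge s e.1, hmeets _ e.2⟩
      left_inv := fun e => Subtype.ext (permEdge_swap_swap u v e.1)
      right_inv := fun e => Subtype.ext (permEdge_swap_swap u v e.1) }
  have hginv : ∀ y, restr (Meets M) g z (fun e => y (τ e)) = restr (Meets M) g z y := by
    intro y
    rw [restr, restr]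
    conv_rhs => rw [← hinv s]
    congr 1
    funext e
    by_cases he : Meets M e
    · simp only [combine, dif_pos he, dif_pos (hmeets e he)]
      rfl
    · have hne : ¬ Meets M (permEdge s e) := by rw [hfix e he]; exact he
      simp only [combine, dif_neg he, dif_neg hne]
      congr 1
      exact Subtype.ext (hfix e he).symm
  refine Finset.sum_equiv τ (fun e => ?_) (fun e _ => (infl_comp τ _ hginv e).symm)
  simp only [Finset.mem_filter, Finset.mem_univ, true_and]
  change u ∈ e.1.1 ↔ v ∈ (permEdge s e.1).1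
  rw [mem_permEdge, hs, Equiv.symm_swap, Equiv.swap_apply_right]

/-! ### The bound for a fixed vertex set -/

lemma caught_weight (h0 : 0 < p) (h1 : p < 1) (g : Hypergraph n r → ℝ)
    (hg : ∀ x, g x = 0 ∨ g x = 1) (hinv : FnInvariant g) (M : Finset (Fin n)) (D : ℕ)
    (a : ℝ) (ha : 1 ≤ a) (hD : (16 / (p * (1 - p))) ^ D ≤ a ^ 2) (hM : a ^ 8 ≤ M.card) :
    ∑ S ∈ (Finset.univ : Finset (Finset (Edge n r))).filter (fun S => Caught M D S),
        specW p g S ≤ 4 * r / a * (p * (1 - p) * ∑ e, infl p g e) := by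
  have hσ : 0 < p * (1 - p) := mul_pos h0 (by linarith)
  set 𝒯 := (Finset.univ : Finset (Finset {e : Edge n r // Meets M e})).filter
    (fun T => T.Nonempty ∧ T.card ≤ D)
  have hfil : (Finset.univ : Finset (Finset (Edge n r))).filter (fun S => Caught M D S) =
      (Finset.univ : Finset (Finset (Edge n r))).filter (fun S => S.subtype (Meets M) ∈ 𝒯) := by
    ext S
    simp [𝒯, Caught]
  rw [hfil, sum_specW_restr (Meets M) h0 h1]
  have ha0 : 0 < a := by linarith
  set c := 2 * (2 * r * (p * (1 - p))) / a with hc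
  have hpt : ∀ z, ∑ T ∈ 𝒯, specW p (restr (Meets M) g z) T ≤
      c * ∑ e, infl p (restr (Meets M) g z) e := by
    intro z
    have hJ : 0 ≤ ∑ e, infl p (restr (Meets M) g z) e :=
      Finset.sum_nonneg fun e _ => infl_nonneg h0.le h1.le _ e
    refine (symmetric_blocks h0 h1 (restr (Meets M) g z) (fun y => hg _) M
      (fun u => (Finset.univ : Finset {e : Edge n r // Meets M e}).filter (fun e => u ∈ e.1.1))
      r D ?_ ?_ (fun u hu v hv => stars_equal g hinv M z u v hu hv)
      (1 / a ^ 4) (1 / a) (by positivity) (by positivity) ?_).trans ?_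
    · intro e
      obtain ⟨u, hu⟩ := e.2
      rw [Finset.mem_inter] at hu
      exact ⟨u, hu.2, by simp [hu.1]⟩
    · intro e
      refine le_trans (Finset.card_le_card fun u hu => ?_) e.1.2.le
      simp only [Finset.mem_filter, Finset.mem_univ, true_and] at hu
      exact hu.2
    · calc (16 / (p * (1 - p))) ^ D * (1 / a ^ 4) ≤ a ^ 2 * (1 / a ^ 4) :=
            mul_le_mul_of_nonneg_right hD (by positivity)
        _ = _ := by field_simp
    · have hb : 1 / a + 1 / (1 / a ^ 4 * (M.card : ℝ)) ≤ 2 / a := by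
        have : 1 / (1 / a ^ 4 * (M.card : ℝ)) ≤ 1 / a := by
          refine one_div_le_one_div_of_le ha0 ?_
          calc a = a ^ 1 := (pow_one a).symm
            _ ≤ a ^ 4 := pow_le_pow_right₀ ha (by norm_num)
            _ = 1 / a ^ 4 * a ^ 8 := by field_simp
            _ ≤ _ := mul_le_mul_of_nonneg_left hM (by positivity)
        calc _ ≤ 1 / a + 1 / a := by linarith
          _ = _ := by ring
      refine (mul_le_mul_of_nonneg_right hb (by positivity)).trans (le_of_eq ?_)
      rw [hc]; ring
  refine (expect_mono h0.le h1.le hpt).trans ?_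
  rw [expect_smul]
  refine (mul_le_mul_of_nonneg_left (sum_infl_restr (Meets M) h0.le h1.le g)
    (by rw [hc]; positivity)).trans (le_of_eq ?_)
  rw [hc]; ring

lemma sum_nonempty_weight (h0 : 0 < p) (h1 : p < 1) (g : Hypergraph n r → ℝ)
    (hg : ∀ x, g x = 0 ∨ g x = 1) (s : Finset (Finset (Edge n r)))
    (hs : ∀ S ∈ s, S.Nonempty) :
    ∑ S ∈ s, specW p g S ≤ p * (1 - p) * ∑ e, infl p g e := by
  refine le_trans ?_ (sum_card_specW h0 h1 g hg)
  refine le_trans (Finset.sum_le_sum (g := fun S => (S.card : ℝ) * specW p g S) fun S hS => ?_)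
    (Finset.sum_le_sum_of_subset_of_nonneg (Finset.subset_univ _)
      fun S _ _ => mul_nonneg (Nat.cast_nonneg _) (specW_nonneg h0 h1 g S))
  exact le_mul_of_one_le_left (specW_nonneg h0 h1 g S)
    (by exact_mod_cast (hs S hS).card_pos)

/-- The weight of sets with exactly `v` covered vertices and at most `k^r` edges. -/
lemma class_weight (hr : 2 ≤ r) (h0 : 0 < p) (h1 : p < 1) (g : Hypergraph n r → ℝ)
    (hg : ∀ x, g x = 0 ∨ g x = 1) (hinv : FnInvariant g) (k v : ℕ) (hv : 1 ≤ v)
    (a : ℝ) (ha : 1 ≤ a) (hD : (16 / (p * (1 - p))) ^ (2 * r * k ^ (r - 1)) ≤ a ^ 2)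
    (han : a ^ 16 = n) (hva : 8 * (v : ℝ) ≤ a) :
    ∑ S ∈ (Finset.univ : Finset (Finset (Edge n r))).filter
        (fun S => S.Nonempty ∧ S.card ≤ k ^ r ∧ (verts S).card = v), specW p g S ≤
      40 * r / a * (p * (1 - p) * ∑ e, infl p g e) := by
  set D := 2 * r * k ^ (r - 1)
  set J := p * (1 - p) * ∑ e, infl p g e with hJ
  set 𝒮 := (Finset.univ : Finset (Finset (Edge n r))).filter
    (fun S => S.Nonempty ∧ S.card ≤ k ^ r ∧ (verts S).card = v)
  set ρ := 1 / (2 * (v : ℝ)) with hρ
  have hv' : (1 : ℝ) ≤ v := by exact_mod_cast hv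
  have ha0 : 0 < a := by linarith
  have hJ0 : 0 ≤ J := mul_nonneg (mul_nonneg h0.le (by linarith))
    (Finset.sum_nonneg fun e _ => infl_nonneg h0.le h1.le g e)
  have hρ0 : 0 < ρ := by rw [hρ]; positivity
  have hρ1 : ρ < 1 := by rw [hρ, div_lt_one (by positivity)]; linarith
  have hn : 0 < n := by
    have : (0 : ℝ) < n := by rw [← han]; positivity
    exact_mod_cast this
  set cI : (Fin n → Bool) → Finset (Edge n r) → ℝ :=
    fun x S => if Caught (toSet x) D S then 1 else 0 with hcI
  have hlow : ∀ S ∈ 𝒮, 1 / 8 * specW p g S ≤ expect ρ (fun x => specW p g S * cI x S) := by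
    intro S hS
    obtain ⟨hne, hk, hV⟩ := (Finset.mem_filter.mp hS).2
    rw [expect_smul, mul_comm]
    refine mul_le_mul_of_nonneg_left ?_ (specW_nonneg h0 h1 g S)
    have := caught_prob D S (verts_card_pos (by omega) hne) (many_low (by omega) k S hk)
    rw [hV] at this
    exact this
  have hup : ∀ x : Fin n → Bool, ∑ S ∈ 𝒮, specW p g S * cI x S ≤
      4 * r / a * J + J * (if ((toSet x).card : ℝ) < a ^ 8 then 1 else 0) := by
    intro x
    have e : ∑ S ∈ 𝒮, specW p g S * cI x S =
        ∑ S ∈ 𝒮.filter (fun S => Caught (toSet x) D S), specW p g S := by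
      simp only [hcI, mul_ite, mul_one, mul_zero]
      exact (Finset.sum_filter _ _).symm
    rw [e]
    split_ifs with hs
    · rw [mul_one]
      refine le_trans (sum_nonempty_weight h0 h1 g hg _ fun S hS => ?_)
        (le_add_of_nonneg_left (by positivity))
      exact (Finset.mem_filter.mp (Finset.mem_filter.mp hS).1).2.1
    · rw [mul_zero, add_zero]
      refine le_trans (Finset.sum_le_sum_of_subset_of_nonneg ?_ fun S _ _ => specW_nonneg h0 h1 g S)
        (caught_weight h0 h1 g hg hinv (toSet x) D a ha hD (le_of_not_gt hs))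
      intro S hS
      simp [(Finset.mem_filter.mp hS).2]
  have hm : a ^ 8 ≤ ρ * n / 2 := by
    rw [← han, hρ]
    have : 4 * (v : ℝ) ≤ a ^ 8 := by
      calc 4 * (v : ℝ) ≤ a := by linarith
        _ = a ^ 1 := (pow_one a).symm
        _ ≤ a ^ 8 := pow_le_pow_right₀ ha (by norm_num)
    rw [le_div_iff₀ two_pos, div_mul_eq_mul_div, one_mul, le_div_iff₀ (by positivity)]
    calc a ^ 8 * 2 * (2 * v) = a ^ 8 * (4 * v) := by ring
      _ ≤ a ^ 8 * a ^ 8 := mul_le_mul_of_nonneg_left this (by positivity)
      _ = _ := by ring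
  have hbad : 4 / (ρ * n) ≤ 1 / a := by
    rw [← han, hρ, div_le_div_iff₀ (by positivity) ha0, one_mul, div_mul_eq_mul_div, one_mul,
      le_div_iff₀ (by positivity)]
    calc 4 * a * (2 * v) = a * (8 * v) := by ring
      _ ≤ a * a := mul_le_mul_of_nonneg_left hva ha0.le
      _ = a ^ 2 := by ring
      _ ≤ a ^ 16 := pow_le_pow_right₀ ha (by norm_num)
  have hmain : 1 / 8 * ∑ S ∈ 𝒮, specW p g S ≤ 4 * r / a * J + J * (1 / a) := by
    rw [Finset.mul_sum]
    refine (Finset.sum_le_sum hlow).trans ?_
    rw [← expect_sum]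
    refine (expect_mono hρ0.le hρ1.le hup).trans ?_
    rw [expect_add, expect_const, expect_smul]
    exact add_le_add le_rfl
      (mul_le_mul_of_nonneg_left ((small_set_prob ρ hρ0 hρ1 hn _ hm).trans hbad) hJ0)
  have hr' : (2 : ℝ) ≤ r := by exact_mod_cast hr
  have h1a : J * (1 / a) ≤ r / a * J := by
    rw [mul_comm]
    exact mul_le_mul_of_nonneg_right (by gcongr; linarith) hJ0
  calc ∑ S ∈ 𝒮, specW p g S = 8 * (1 / 8 * ∑ S ∈ 𝒮, specW p g S) := by ring
    _ ≤ 8 * (4 * r / a * J + r / a * J) := by linarith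
    _ = _ := by ring

/-- The variance is at most `2/k^r` times the normalised total influence. -/
lemma variance_le (hr : 2 ≤ r) (h0 : 0 < p) (h1 : p < 1) (g : Hypergraph n r → ℝ)
    (hg : ∀ x, g x = 0 ∨ g x = 1) (hinv : FnInvariant g) (k : ℕ) (hk : 1 ≤ k)
    (a : ℝ) (hD : (16 / (p * (1 - p))) ^ (2 * r * k ^ (r - 1)) ≤ a ^ 2)
    (han : a ^ 16 = n) (hka : 40 * (r : ℝ) ^ 2 * (k : ℝ) ^ (2 * r) ≤ a) :
    expect p (fun x => g x ^ 2) - (expect p g) ^ 2 ≤
      2 / (k : ℝ) ^ r * (p * (1 - p) * ∑ e, infl p g e) := by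
  set J := p * (1 - p) * ∑ e, infl p g e with hJ
  have hJ0 : 0 ≤ J := mul_nonneg (mul_nonneg h0.le (by linarith))
    (Finset.sum_nonneg fun e _ => infl_nonneg h0.le h1.le g e)
  have hk' : (1 : ℝ) ≤ k := by exact_mod_cast hk
  have hr' : (2 : ℝ) ≤ r := by exact_mod_cast hr
  have hkr1 : (1 : ℝ) ≤ (k : ℝ) ^ r := one_le_pow₀ hk'
  have hkr : (k : ℝ) ^ (2 * r) = (k : ℝ) ^ r * (k : ℝ) ^ r := by rw [two_mul, pow_add]
  have ha : 1 ≤ a := by
    have : 1 ≤ (r : ℝ) ^ 2 := one_le_pow₀ (by linarith)
    have h2 : 1 ≤ (k : ℝ) ^ (2 * r) := one_le_pow₀ hk'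
    nlinarith
  have ha0 : 0 < a := by linarith
  rw [variance_eq h0 h1]
  rw [← Finset.sum_filter_add_sum_filter_not _ (fun S => S.card ≤ k ^ r)]
  have hbig : ∑ S ∈ ((Finset.univ : Finset (Finset (Edge n r))).erase ∅).filter
      (fun S => ¬ S.card ≤ k ^ r), specW p g S ≤ 1 / (k : ℝ) ^ r * J := by
    rw [div_mul_eq_mul_div, one_mul, le_div_iff₀ (by positivity), Finset.sum_mul]
    refine le_trans (Finset.sum_le_sum (g := fun S => (S.card : ℝ) * specW p g S) fun S hS => ?_)
      (le_trans (Finset.sum_le_sum_of_subset_of_nonneg (Finset.subset_univ _)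
        fun S _ _ => mul_nonneg (Nat.cast_nonneg _) (specW_nonneg h0 h1 g S))
      (sum_card_specW h0 h1 g hg))
    rw [mul_comm]
    refine mul_le_mul_of_nonneg_right ?_ (specW_nonneg h0 h1 g S)
    exact_mod_cast (le_of_not_ge (Finset.mem_filter.mp hS).2)
  have hsmall : ∑ S ∈ ((Finset.univ : Finset (Finset (Edge n r))).erase ∅).filter
      (fun S => S.card ≤ k ^ r), specW p g S ≤ 1 / (k : ℝ) ^ r * J := by
    rw [← Finset.sum_fiberwise_of_maps_to (t := Finset.Icc 1 (r * k ^ r))
      (g := fun S => (verts S).card)]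
    · refine (Finset.sum_le_sum (g := fun _ => 40 * (r : ℝ) / a * J) fun v hv => ?_).trans ?_
      · obtain ⟨hv1, hv2⟩ := Finset.mem_Icc.mp hv
        refine le_trans (le_of_eq (Finset.sum_congr ?_ fun _ _ => rfl))
          (class_weight hr h0 h1 g hg hinv k v hv1 a ha hD han ?_)
        · ext S
          simp [Finset.nonempty_iff_ne_empty, and_assoc]
        · have : (v : ℝ) ≤ r * (k : ℝ) ^ r := by exact_mod_cast hv2
          have h8 : 8 * (r * (k : ℝ) ^ r) ≤ 40 * (r : ℝ) ^ 2 * (k : ℝ) ^ (2 * r) := by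
            rw [hkr]
            nlinarith [mul_le_mul_of_nonneg_left hkr1 (by positivity : (0 : ℝ) ≤ r * (k : ℝ) ^ r)]
          linarith
      · rw [Finset.sum_const, Nat.card_Icc, nsmul_eq_mul, Nat.add_sub_cancel, ← mul_assoc]
        refine mul_le_mul_of_nonneg_right ?_ hJ0
        push_cast
        rw [← mul_div_assoc, div_le_div_iff₀ ha0 (by positivity), one_mul]
        calc (r : ℝ) * (k : ℝ) ^ r * (40 * r) * (k : ℝ) ^ r
            = 40 * (r : ℝ) ^ 2 * (k : ℝ) ^ (2 * r) := by rw [hkr]; ring
          _ ≤ a := hka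
    · intro S hS
      simp only [Finset.mem_filter, Finset.mem_erase, Finset.mem_univ, and_true] at hS
      simp only [Finset.mem_Icc]
      exact ⟨verts_card_pos (by omega) (Finset.nonempty_iff_ne_empty.mpr hS.1),
        (verts_card_le S).trans (Nat.mul_le_mul_left _ hS.2)⟩
  calc _ ≤ 1 / (k : ℝ) ^ r * J + 1 / (k : ℝ) ^ r * J := add_le_add hsmall hbig
    _ = _ := by ring

end Vale.Agent.P063
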