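import Mathlib
import Vale.Agent.P063.Hyper

/-!
The total influence of a vertex-invariant Boolean function on uniform hypergraphs, at every bias.
-/

namespace Vale.Agent.P063

open Finset Filter

lemma eventually_poly_le_exp (C : ℝ) (m : ℕ) :
    ∃ N : ℕ, ∀ n : ℕ, N ≤ n → 1 ≤ Real.log n ∧
      C * Real.log n ^ m ≤ Real.exp (Real.log n / 16) := by
  have h1 : Tendsto (fun n : ℕ => Real.log n) atTop atTop :=
    Real.tendsto_log_atTop.comp tendsto_natCast_atTop_atTop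
  have h2 : Tendsto (fun n : ℕ => Real.log n / 16) atTop atTop :=
    h1.atTop_div_const (by norm_num)
  have h3 := ((Real.tendsto_exp_div_pow_atTop m).comp h2).eventually_ge_atTop (C * 16 ^ m)
  have h4 := h1.eventually_ge_atTop 1
  obtain ⟨N, hN⟩ := Filter.eventually_atTop.mp (h3.and h4)
  refine ⟨N, fun n hn => ⟨(hN n hn).2, ?_⟩⟩
  obtain ⟨ha, hb⟩ := hN n hn
  simp only [Function.comp] at ha
  rw [le_div_iff₀ (by positivity)] at ha
  calc C * Real.log n ^ m = C * 16 ^ m * (Real.log n / 16) ^ m := by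
        rw [div_pow]; field_simp
    _ ≤ _ := ha

lemma bias_log (p : ℝ) (h0 : 0 < p) (h1 : p < 1) :
    1 ≤ Real.log (16 / (p * (1 - p))) ∧
      p * (1 - p) * Real.log (16 / (p * (1 - p))) ^ 2 ≤ 64 := by
  set σ := p * (1 - p) with hσdef
  have hσ : 0 < σ := mul_pos h0 (by linarith)
  have hσ4 : σ ≤ 1 / 4 := by nlinarith [sq_nonneg (2 * p - 1)]
  have h64 : 64 ≤ 16 / σ := by rw [le_div_iff₀ hσ]; linarith
  have hy : 0 < 16 / σ := by positivity
  have hl : 1 ≤ Real.log (16 / σ) := by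
    rw [Real.le_log_iff_exp_le hy]
    have := Real.exp_one_lt_d9
    linarith
  refine ⟨hl, ?_⟩
  have hs : Real.log (16 / σ) ≤ 2 * Real.sqrt (16 / σ) := by
    have := Real.log_le_sub_one_of_pos (Real.sqrt_pos.mpr hy)
    rw [Real.log_sqrt hy.le] at this
    linarith
  have hsq : Real.log (16 / σ) ^ 2 ≤ 4 * (16 / σ) := by
    calc _ ≤ (2 * Real.sqrt (16 / σ)) ^ 2 := pow_le_pow_left₀ (by linarith) hs 2
      _ = _ := by rw [mul_pow, Real.sq_sqrt hy.le]; ring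
  calc σ * Real.log (16 / σ) ^ 2 ≤ σ * (4 * (16 / σ)) := mul_le_mul_of_nonneg_left hsq hσ.le
    _ = _ := by field_simp; ring

lemma variance_le_poincare {n r : ℕ} {p : ℝ} (h0 : 0 < p) (h1 : p < 1) (g : Hypergraph n r → ℝ)
    (hg : ∀ x, g x = 0 ∨ g x = 1) :
    0 ≤ expect p (fun x => g x ^ 2) - (expect p g) ^ 2 ∧
      expect p (fun x => g x ^ 2) - (expect p g) ^ 2 ≤ p * (1 - p) * ∑ e, infl p g e := by
  rw [variance_eq h0 h1]
  exact ⟨Finset.sum_nonneg fun S _ => specW_nonneg h0 h1 g S,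
    sum_nonempty_weight h0 h1 g hg _ fun S hS =>
      Finset.nonempty_iff_ne_empty.mpr (Finset.ne_of_mem_erase hS)⟩

lemma influence_large {n r : ℕ} (hr : 2 ≤ r) (hn : r ≤ n) {p : ℝ} (h0 : 0 < p) (h1 : p < 1)
    (g : Hypergraph n r → ℝ) (hg : ∀ x, g x = 0 ∨ g x = 1) (hinv : FnInvariant g)
    (V I σ lam Q X E : ℝ) (hV : V = expect p (fun x => g x ^ 2) - (expect p g) ^ 2)
    (hI : I = ∑ e, infl p g e) (hσdef : σ = p * (1 - p))
    (hlamdef : lam = Real.log (16 / (p * (1 - p)))) (hQ : Q = 16 * r * lam)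
    (hE : E = (r : ℝ) / ((r : ℝ) - 1)) (hXQ : Real.log n = Q * X) (hX1' : 1 ≤ X)
    (hQ1 : 1 ≤ Q) (hQE : Q ^ E ≤ Q ^ 2) (hkey : σ * Q ^ 2 ≤ 256 * (r : ℝ) ^ 2 * 64)
    (hI0 : 0 ≤ I) (hV0 : 0 ≤ V) (hlam : 1 ≤ lam)
    (hpoly : 40 * (r : ℝ) ^ 2 * Real.log n ^ (2 * r) ≤ Real.exp (Real.log n / 16)) :
    V * Real.log n ^ E ≤ 256 * (r : ℝ) ^ 2 * 2 ^ (r + 1) * 64 * I := by
  have hr' : (2 : ℝ) ≤ r := by exact_mod_cast hr
  have hr1 : (0 : ℝ) < (r : ℝ) - 1 := by linarith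
  have hσ : 0 < σ := hσdef ▸ mul_pos h0 (by linarith)
  set y := X ^ (((r - 1 : ℕ) : ℝ)⁻¹) with hy
  have hr0 : r - 1 ≠ 0 := by omega
  have hypow : y ^ (r - 1) = X := Real.rpow_inv_natCast_pow (by linarith) hr0
  have hy1 : 1 ≤ y := Real.one_le_rpow hX1' (by positivity)
  set k := ⌊y⌋₊ with hk
  have hk1 : 1 ≤ k := Nat.one_le_floor_iff _ |>.mpr hy1
  have hky : (k : ℝ) ≤ y := Nat.floor_le (by linarith)
  have hyk : y ≤ 2 * k := by
    have := Nat.lt_floor_add_one y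
    have hk1' : (1 : ℝ) ≤ k := by exact_mod_cast hk1
    linarith
  have hkX : (k : ℝ) ^ (r - 1) ≤ X := by
    rw [← hypow]; exact pow_le_pow_left₀ (Nat.cast_nonneg _) hky _
  have hklog : (k : ℝ) ≤ Real.log n := by
    have : y ≤ X := by
      calc y = y ^ 1 := (pow_one y).symm
        _ ≤ y ^ (r - 1) := pow_le_pow_right₀ hy1 (by omega)
        _ = X := hypow
    calc (k : ℝ) ≤ X := hky.trans this
      _ ≤ Q * X := le_mul_of_one_le_left (by linarith) hQ1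
      _ = _ := hXQ.symm
  set a := Real.exp (Real.log n / 16) with ha
  have han : a ^ 16 = (n : ℝ) := by
    have hn0 : (0 : ℝ) < n := by exact_mod_cast (by omega : 0 < n)
    rw [ha, ← Real.exp_nat_mul]
    convert Real.exp_log hn0 using 2
    push_cast; ring
  have hD : (16 / (p * (1 - p))) ^ (2 * r * k ^ (r - 1)) ≤ a ^ 2 := by
    have hy16 : 0 < 16 / (p * (1 - p)) := by positivity
    have hrw : 16 / (p * (1 - p)) = Real.exp lam := by rw [hlamdef, Real.exp_log hy16]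
    rw [hrw, ha, ← Real.exp_nat_mul, ← Real.exp_nat_mul]
    refine Real.exp_le_exp.mpr ?_
    push_cast
    calc 2 * (r : ℝ) * (k : ℝ) ^ (r - 1) * lam ≤ 2 * r * X * lam := by gcongr
      _ = 2 * (Q * X) / 16 := by rw [hQ]; ring
      _ = _ := by rw [← hXQ]; ring
  have hka : 40 * (r : ℝ) ^ 2 * (k : ℝ) ^ (2 * r) ≤ a := by
    refine le_trans ?_ hpoly
    gcongr
  have hvar := variance_le hr h0 h1 g hg hinv k hk1 a hD han hka
  rw [← hV, ← hI, ← hσdef] at hvar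
  have hkpos : (0 : ℝ) < (k : ℝ) ^ r := by positivity
  rw [div_mul_eq_mul_div, le_div_iff₀ hkpos] at hvar
  have hXE : X ^ E = y ^ r := by
    rw [← hypow, ← Real.rpow_natCast y (r - 1), ← Real.rpow_mul (by linarith),
      ← Real.rpow_natCast y r]
    congr 1
    rw [Nat.cast_sub (by omega : 1 ≤ r), Nat.cast_one, hE]
    field_simp
  have hL : Real.log n ^ E ≤ Q ^ 2 * ((2 : ℝ) ^ r * (k : ℝ) ^ r) := by
    rw [hXQ, Real.mul_rpow (by linarith) (by linarith), hXE, ← mul_pow]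
    exact mul_le_mul hQE (pow_le_pow_left₀ (by linarith) hyk r) (by positivity) (sq_nonneg _)
  calc V * Real.log n ^ E ≤ V * (Q ^ 2 * ((2 : ℝ) ^ r * (k : ℝ) ^ r)) :=
        mul_le_mul_of_nonneg_left hL hV0
    _ = Q ^ 2 * (2 : ℝ) ^ r * (V * (k : ℝ) ^ r) := by ring
    _ ≤ Q ^ 2 * (2 : ℝ) ^ r * (2 * (σ * I)) :=
        mul_le_mul_of_nonneg_left hvar (by positivity)
    _ = (σ * Q ^ 2) * 2 ^ (r + 1) * I := by rw [pow_succ]; ring
    _ ≤ (256 * (r : ℝ) ^ 2 * 64) * 2 ^ (r + 1) * I :=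
        mul_le_mul_of_nonneg_right (mul_le_mul_of_nonneg_right hkey (by positivity)) hI0
    _ = 256 * (r : ℝ) ^ 2 * 2 ^ (r + 1) * 64 * I := by ring

/-- For every `r ≥ 2`, the total influence at bias `p` of a vertex-invariant property is at least a
constant times its variance times `(log n)^(r/(r-1))`, uniformly in `p`. -/
theorem influence_bound (r : ℕ) (hr : 2 ≤ r) :
    ∃ C : ℝ, 0 < C ∧ ∀ (n : ℕ), r ≤ n → ∀ p : ℝ, 0 < p → p < 1 →
      ∀ g : Hypergraph n r → ℝ, (∀ x, g x = 0 ∨ g x = 1) → FnInvariant g →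
        (expect p (fun x => g x ^ 2) - (expect p g) ^ 2) *
            Real.log n ^ ((r : ℝ) / ((r : ℝ) - 1)) ≤
          C * ∑ e, infl p g e := by
  set E : ℝ := (r : ℝ) / ((r : ℝ) - 1) with hE
  have hr' : (2 : ℝ) ≤ r := by exact_mod_cast hr
  have hr1 : (0 : ℝ) < (r : ℝ) - 1 := by linarith
  have hE0 : 0 ≤ E := div_nonneg (by linarith) hr1.le
  have hE2 : E ≤ 2 := by rw [hE, div_le_iff₀ hr1]; linarith
  obtain ⟨N, hN⟩ := eventually_poly_le_exp (40 * (r : ℝ) ^ 2) (2 * r)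
  set B : ℝ := 256 * (r : ℝ) ^ 2 * 2 ^ (r + 1) * 64 with hB
  set L₀ : ℝ := Real.log N ^ E with hL₀
  have hL₀0 : 0 ≤ L₀ := Real.rpow_nonneg (Real.log_natCast_nonneg N) _
  have hB0 : 0 < B := by positivity
  refine ⟨B + L₀, by linarith, fun n hn p h0 h1 g hg hinv => ?_⟩
  set I := ∑ e, infl p g e with hI
  set V := expect p (fun x => g x ^ 2) - (expect p g) ^ 2 with hV
  set σ := p * (1 - p) with hσdef
  have hσ : 0 < σ := mul_pos h0 (by linarith)
  have hI0 : 0 ≤ I := Finset.sum_nonneg fun e _ => infl_nonneg h0.le h1.le g e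
  obtain ⟨hV0, hP⟩ := variance_le_poincare h0 h1 g hg
  rw [← hV] at hV0 hP
  rw [← hI, ← hσdef] at hP
  have hlogn : 0 ≤ Real.log n := Real.log_natCast_nonneg n
  by_cases hsmall : n < N
  · have hL : Real.log n ^ E ≤ L₀ := by
      refine Real.rpow_le_rpow hlogn (Real.log_le_log ?_ ?_) hE0
      · exact_mod_cast (by omega : 0 < n)
      · exact_mod_cast hsmall.le
    have hσ1 : σ ≤ 1 := by nlinarith
    calc V * Real.log n ^ E ≤ (σ * I) * L₀ :=
          mul_le_mul hP hL (Real.rpow_nonneg hlogn _) (by positivity)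
      _ ≤ (1 * I) * L₀ := by gcongr
      _ ≤ _ := by nlinarith
  obtain ⟨hlog1, hpoly⟩ := hN n (not_lt.mp hsmall)
  obtain ⟨hlam, hlam2⟩ := bias_log p h0 h1
  set lam := Real.log (16 / (p * (1 - p))) with hlamdef
  rw [← hσdef] at hlam2
  set Q : ℝ := 16 * r * lam with hQ
  have hQ1 : 1 ≤ Q := by rw [hQ]; nlinarith
  have hQE : Q ^ E ≤ Q ^ 2 := by
    rw [← Real.rpow_natCast Q 2]
    exact Real.rpow_le_rpow_of_exponent_le hQ1 (by exact_mod_cast hE2)
  have hkey : σ * Q ^ 2 ≤ 256 * (r : ℝ) ^ 2 * 64 := by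
    calc σ * Q ^ 2 = 256 * (r : ℝ) ^ 2 * (σ * lam ^ 2) := by rw [hQ]; ring
      _ ≤ _ := mul_le_mul_of_nonneg_left hlam2 (by positivity)
  set X := Real.log n / Q with hX
  have hXQ : Real.log n = Q * X := by rw [hX]; field_simp
  by_cases hX1 : X < 1
  · have hL : Real.log n ^ E ≤ Q ^ 2 := by
      refine le_trans (Real.rpow_le_rpow hlogn ?_ hE0) hQE
      rw [hXQ]; exact mul_le_of_le_one_right (by linarith) hX1.le
    calc V * Real.log n ^ E ≤ (σ * I) * Q ^ 2 :=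
          mul_le_mul hP hL (Real.rpow_nonneg hlogn _) (by positivity)
      _ = (σ * Q ^ 2) * I := by ring
      _ ≤ (256 * (r : ℝ) ^ 2 * 64) * I := mul_le_mul_of_nonneg_right hkey hI0
      _ ≤ _ := by
        refine mul_le_mul_of_nonneg_right ?_ hI0
        have h2 : (1 : ℝ) ≤ 2 ^ (r + 1) := one_le_pow₀ (by norm_num)
        rw [hB]
        nlinarith
  refine le_trans (influence_large hr hn h0 h1 g hg hinv V I σ lam Q X E hV hI hσdef hlamdef hQ hE
    hXQ (not_lt.mp hX1) hQ1 hQE hkey hI0 hV0 hlam hpoly) ?_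
  rw [← hB]
  exact mul_le_mul_of_nonneg_right (by linarith) hI0

end Vale.Agent.P063
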