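import Mathlib
import Vale.Agent.P063.Influence

/-!
Russo's formula and the bound on the threshold width.
-/

namespace Vale.Agent.P063

open Finset

section Russo

variable {ι : Type*} [Fintype ι] [DecidableEq ι]

lemma continuous_expect (g : (ι → Bool) → ℝ) : Continuous fun p => expect p g := by
  have hb : ∀ b, Continuous fun p : ℝ => bw p b := by
    intro b; cases b <;> simp [bw] <;> fun_prop
  unfold expect wt
  exact continuous_finsetSum _ fun x _ =>
    (continuous_finsetProd _ fun i _ => hb _).mul continuous_const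

lemma hasDerivAt_expect {p : ℝ} (h0 : 0 < p) (h1 : p < 1) (g : (ι → Bool) → ℝ)
    (hmono : ∀ x e, g (Function.update x e false) ≤ g (Function.update x e true)) :
    HasDerivAt (fun q => expect q g) (∑ e, infl p g e) p := by
  set u : Bool → ℝ := fun b => if b then 1 / p else -(1 / (1 - p)) with hu
  have hq : (1 : ℝ) - p ≠ 0 := by linarith
  have hb : ∀ b : Bool, HasDerivAt (fun q => bw q b) (bw p b * u b) p := by
    intro b
    cases b
    · have : bw p false * u false = -1 := by simp [bw, hu]; field_simp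
      rw [this]
      simpa [bw] using (hasDerivAt_id' p).const_sub (1 : ℝ)
    · have : bw p true * u true = 1 := by simp [bw, hu]; field_simp
      rw [this]
      simpa [bw] using hasDerivAt_id' p
  have hd : HasDerivAt (fun q => expect q g)
      (∑ x : ι → Bool, (∑ e, wt p x * u (x e)) * g x) p := by
    refine HasDerivAt.fun_sum fun x _ => HasDerivAt.mul_const ?_ (g x)
    have h := HasDerivAt.fun_finsetProd (u := Finset.univ)
      (fun i (_ : i ∈ Finset.univ) => hb (x i))
    refine h.congr_deriv (Finset.sum_congr rfl fun i _ => ?_)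
    rw [wt, ← Finset.mul_prod_erase _ _ (Finset.mem_univ i), smul_eq_mul]
    ring
  refine hd.congr_deriv ?_
  simp only [Finset.sum_mul]
  rw [Finset.sum_comm]
  refine Finset.sum_congr rfl fun e _ => ?_
  have e1 : ∀ x, |g (Function.update x e true) - g (Function.update x e false)| =
      avg p {e} (fun y => u (y e) * g y) x := by
    intro x
    rw [abs_of_nonneg (sub_nonneg.mpr (hmono x e)), avg_singleton]
    simp only [Function.update_self, hu, if_true, Bool.false_eq_true, if_false]
    field_simp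
    ring
  simp only [infl, e1]
  rw [expect_avg]
  simp only [expect, mul_assoc]

end Russo

variable {n r : ℕ}

/-- The indicator of a property. -/
noncomputable def indic (P : Set (Hypergraph n r)) : Hypergraph n r → ℝ :=
  P.indicator fun _ => 1

lemma indic_bool (P : Set (Hypergraph n r)) (x : Hypergraph n r) :
    indic P x = 0 ∨ indic P x = 1 := by
  by_cases h : x ∈ P <;> simp [indic, h]

lemma mu_eq_expect (p : ℝ) (P : Set (Hypergraph n r)) : mu p P = expect p (indic P) := by
  refine Finset.sum_congr rfl fun x _ => ?_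
  by_cases h : x ∈ P <;> simp [indic, h, wt, bw]

lemma permEdge_symm (σ : Equiv.Perm (Fin n)) (e : Edge n r) :
    permEdge σ (permEdge σ.symm e) = e := by
  ext w
  simp [mem_permEdge]

lemma indic_invariant {P : Set (Hypergraph n r)} (hP : IsInvariant P) :
    FnInvariant (indic P) := by
  intro σ x
  by_cases h : x ∈ P
  · simp [indic, h, hP σ x h]
  · have : (fun e => x (permEdge σ e)) ∉ P := by
      intro hc
      have := hP σ.symm _ hc
      simp only [permEdge_symm] at this
      exact h this
    simp [indic, h, this]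

lemma indic_mono {P : Set (Hypergraph n r)} (hP : IsIncreasing P) (x : Hypergraph n r)
    (e : Edge n r) :
    indic P (Function.update x e false) ≤ indic P (Function.update x e true) := by
  by_cases h : Function.update x e false ∈ P
  · have : Function.update x e true ∈ P := by
      refine hP _ _ (fun i hi => ?_) h
      by_cases hie : i = e
      · subst hie; simp
      · simpa [hie] using hi
    simp [indic, h, this]
  · rcases indic_bool P (Function.update x e true) with h' | h' <;> simp [indic, h] at h' ⊢ <;>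
      simp [h']

lemma mu_monotone {P : Set (Hypergraph n r)} (hP : IsIncreasing P) :
    MonotoneOn (fun p => mu p P) (Set.Icc (0 : ℝ) 1) := by
  simp only [mu_eq_expect]
  refine monotoneOn_of_deriv_nonneg (convex_Icc 0 1) (continuous_expect _).continuousOn ?_ ?_
  · rw [interior_Icc]
    exact fun p hp =>
      (hasDerivAt_expect hp.1 hp.2 _ (indic_mono hP)).differentiableAt.differentiableWithinAt
  · rw [interior_Icc]
    intro p hp
    rw [(hasDerivAt_expect hp.1 hp.2 _ (indic_mono hP)).deriv]
    exact Finset.sum_nonneg fun e _ => infl_nonneg hp.1.le hp.2.le _ e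

lemma mu_one {P : Set (Hypergraph n r)} (hP : IsIncreasing P) (hne : P.Nonempty) :
    mu 1 P = 1 := by
  obtain ⟨x, hx⟩ := hne
  have htop : (fun _ : Edge n r => true) ∈ P := hP x _ (fun _ _ => rfl) hx
  rw [mu, Finset.sum_eq_single (fun _ : Edge n r => true)]
  · simp [htop]
  · intro y _ hy
    obtain ⟨e, he⟩ := Function.ne_iff.mp hy
    by_cases h : y ∈ P
    · rw [Set.indicator_of_mem h]
      exact Finset.prod_eq_zero (Finset.mem_univ e) (by simp_all)
    · exact Set.indicator_of_notMem h _
  · simp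

/-- The threshold width of a nonempty increasing invariant property. -/
theorem width_bound (r : ℕ) (hr : 2 ≤ r) (ε : ℝ) (hε : 0 < ε) (hε2 : ε < 1 / 2) :
    ∃ C : ℝ, 0 < C ∧ ∀ (n : ℕ), r ≤ n → ∀ P : Set (Hypergraph n r),
      IsInvariant P → IsIncreasing P → P.Nonempty →
        width ε P ≤ C * Real.log n ^ (-((r : ℝ) / ((r : ℝ) - 1))) := by
  obtain ⟨C, hC, hinf⟩ := influence_bound r hr
  refine ⟨C / ε ^ 2, by positivity, fun n hn P hinv hinc hne => ?_⟩
  set E : ℝ := (r : ℝ) / ((r : ℝ) - 1)
  have hlog : 0 < Real.log n := Real.log_pos (by exact_mod_cast (by omega : 1 < n))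
  set L := Real.log n ^ E with hLdef
  have hL : 0 < L := Real.rpow_pos_of_pos hlog _
  rw [Real.rpow_neg hlog.le, ← hLdef, ← div_eq_mul_inv]
  set B := C / ε ^ 2 / L with hB
  have hB0 : 0 < B := by positivity
  set s₀ := {p : ℝ | p ∈ Set.Icc 0 1 ∧ ε ≤ mu p P} with hs₀
  set s₁ := {p : ℝ | p ∈ Set.Icc 0 1 ∧ 1 - ε ≤ mu p P} with hs₁
  have hwidth : width ε P = sInf s₁ - sInf s₀ := rfl
  have h1 : (1 : ℝ) ∈ Set.Icc (0 : ℝ) 1 := ⟨zero_le_one, le_rfl⟩
  have hne₀ : s₀.Nonempty := ⟨1, h1, by rw [mu_one hinc hne]; linarith⟩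
  have hne₁ : s₁.Nonempty := ⟨1, h1, by rw [mu_one hinc hne]; linarith⟩
  have hbd₁ : BddBelow s₁ := ⟨0, fun p hp => hp.1.1⟩
  have h0₀ : 0 ≤ sInf s₀ := le_csInf hne₀ fun p hp => hp.1.1
  have h1₁ : sInf s₁ ≤ 1 := csInf_le hbd₁ ⟨h1, by rw [mu_one hinc hne]; linarith⟩
  by_contra hcon
  rw [hwidth, not_le] at hcon
  set δ := (sInf s₁ - sInf s₀ - B) / 3 with hδ
  set a := sInf s₀ + δ with ha
  set b := sInf s₁ - δ with hb
  have hδ0 : 0 < δ := by rw [hδ]; linarith
  have hab : a < b := by rw [ha, hb, hδ]; linarith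
  have hmu : ∀ p ∈ Set.Icc a b, ε ≤ mu p P ∧ mu p P < 1 - ε ∧ 0 < p ∧ p < 1 := by
    intro p hp
    have hp0 : sInf s₀ < p := by linarith [hp.1]
    have hp1 : p < sInf s₁ := by linarith [hp.2]
    have hpI : p ∈ Set.Icc (0 : ℝ) 1 := ⟨by linarith, by linarith⟩
    refine ⟨?_, ?_, by linarith, by linarith⟩
    · obtain ⟨q, hq, hqp⟩ := exists_lt_of_csInf_lt hne₀ hp0
      exact hq.2.trans (mu_monotone hinc hq.1 hpI hqp.le)
    · by_contra hge
      exact absurd (csInf_le hbd₁ ⟨hpI, not_lt.mp hge⟩) (not_le.mpr hp1)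
  have hderiv : ∀ p ∈ Set.Icc a b,
      HasDerivAt (fun q => mu q P) (∑ e, infl p (indic P) e) p := by
    intro p hp
    simp only [mu_eq_expect]
    exact hasDerivAt_expect (hmu p hp).2.2.1 (hmu p hp).2.2.2 _ (indic_mono hinc)
  obtain ⟨c, hc, hslope⟩ := exists_hasDerivAt_eq_slope (fun q => mu q P)
    (fun p => ∑ e, infl p (indic P) e) hab
    (fun p hp => (hderiv p hp).continuousAt.continuousWithinAt)
    (fun p hp => hderiv p (Set.Ioo_subset_Icc_self hp))
  obtain ⟨hc1, hc2, hc3, hc4⟩ := hmu c (Set.Ioo_subset_Icc_self hc)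
  have hI := hinf n hn c hc3 hc4 (indic P) (indic_bool P) (indic_invariant hinv)
  have hsq : expect c (fun x => indic P x ^ 2) = expect c (indic P) := by
    congr 1; funext x; rcases indic_bool P x with h | h <;> simp [h]
  rw [hsq, ← mu_eq_expect, hslope] at hI
  have hva : ε ^ 2 ≤ mu c P - mu c P ^ 2 := by nlinarith
  have hlen : B < b - a := by rw [ha, hb, hδ]; linarith
  have hdiff : mu b P - mu a P < 1 := by
    have h1 := (hmu b (Set.right_mem_Icc.mpr hab.le)).2.1
    have h2 := (hmu a (Set.left_mem_Icc.mpr hab.le)).1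
    linarith
  have h3 : ε ^ 2 * L ≤ C * ((mu b P - mu a P) / (b - a)) :=
    le_trans (mul_le_mul_of_nonneg_right hva hL.le) hI
  rw [← mul_div_assoc, le_div_iff₀ (by linarith)] at h3
  have h4 : ε ^ 2 * L * B = C := by rw [hB]; field_simp
  nlinarith [mul_lt_mul_of_pos_left hlen (by positivity : 0 < ε ^ 2 * L),
    mul_lt_mul_of_pos_left hdiff hC]

end Vale.Agent.P063
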